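import Vale.Agent.P214.Bdl.B1

/-!
# P214, block DIM: covering lemma with exceptional scales

`FlatExc d ρ η C₀ r₀ A` : at the levels `r_i = (6ρ)^i r₀` the points of `A` for which the level is
not exceptional lie near `d`-planes, and every point of `A` has at most `η k + C₀` exceptional
levels below `k`.  Then `dimH A ≤ d` (`dimH_le_of_flat_exc`).
-/

open MeasureTheory Set Filter Topology
open scoped ENNReal NNReal

set_option linter.all false

namespace Vale.Agent.P214.DIM

variable {E : Type*} [NormedAddCommGroup E] [InnerProductSpace ℝ E] [FiniteDimensional ℝ E]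

/-- flatness of `A` at one point and one scale -/
def FlatPt (d : ℕ) (rho r : ℝ) (A : Set E) (x : E) : Prop :=
  ∃ L : Submodule ℝ E, Module.finrank ℝ L ≤ d ∧
    ∀ y ∈ A, dist y x ≤ r → ‖(y - x) - L.starProjection (y - x)‖ ≤ rho * r

/-- One covering step (one point, one scale). -/
lemma cover_one (d : ℕ) {rho : ℝ} (h0 : 0 < rho) {A : Set E} {x : E} (hx : x ∈ A) {r : ℝ}
    (hr : 0 < r) (hfl : FlatPt d rho r A x) :
    ∃ F : Finset E, (F : Set E) ⊆ A ∧ F.card ≤ cellNum d rho ∧
      A ∩ Metric.closedBall x r ⊆ ⋃ y ∈ F, Metric.closedBall y (3 * rho * r) := by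
  classical
  obtain ⟨L, hL, hflat⟩ := hfl
  set k := Module.finrank ℝ L with hk
  let b : OrthonormalBasis (Fin k) ℝ L := stdOrthonormalBasis ℝ L
  set M : ℕ := ⌈((d : ℝ) + 1) / rho⌉₊ with hM
  set δ : ℝ := rho / ((d : ℝ) + 1) with hδ
  have hd1 : (0 : ℝ) < (d : ℝ) + 1 := by positivity
  have hδ0 : 0 < δ := by positivity
  -- coordinates
  let co : E → Fin d → ℝ := fun y i =>
    if h : (i : ℕ) < k then b.repr (L.orthogonalProjectionOnto (y - x)) ⟨i, h⟩ else 0
  let Idx := Fin d → (Finset.Icc (-(M : ℤ)) (M : ℤ))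
  let c0 : E → Fin d → ℤ := fun y i => ⌊co y i / (δ * r)⌋
  -- coordinates are bounded
  have hco : ∀ y, dist y x ≤ r → ∀ i, |co y i| ≤ r := by
    intro y hy i
    simp only [co]
    split_ifs with h
    · have h1 : ‖b.repr (L.orthogonalProjectionOnto (y - x)) ⟨i, h⟩‖ ≤
          ‖b.repr (L.orthogonalProjectionOnto (y - x))‖ := PiLp.norm_apply_le _ _
      rw [LinearIsometryEquiv.norm_map] at h1
      have h2 : ‖L.orthogonalProjectionOnto (y - x)‖ ≤ ‖y - x‖ :=
        L.norm_orthogonalProjectionOnto_apply_le _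
      rw [dist_eq_norm] at hy
      rw [← Real.norm_eq_abs]
      linarith
    · simpa using hr.le
  have hc0 : ∀ y, dist y x ≤ r → ∀ i, c0 y i ∈ Finset.Icc (-(M : ℤ)) (M : ℤ) := by
    intro y hy i
    have h1 := hco y hy i
    have hMle : ((d : ℝ) + 1) / rho ≤ M := Nat.le_ceil _
    have h2 : |co y i / (δ * r)| ≤ M := by
      rw [abs_div, abs_of_pos (show 0 < δ * r by positivity), div_le_iff₀ (by positivity)]
      have h3 : r ≤ ((d : ℝ) + 1) / rho * (δ * r) := by
        rw [hδ]; field_simp; exact le_refl _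
      calc |co y i| ≤ r := h1
        _ ≤ ((d : ℝ) + 1) / rho * (δ * r) := h3
        _ ≤ M * (δ * r) := by gcongr
    rw [abs_le] at h2
    rw [Finset.mem_Icc]
    constructor
    · rw [Int.le_floor]; push_cast; exact h2.1
    · have : (⌊co y i / (δ * r)⌋ : ℝ) ≤ (M : ℤ) := (Int.floor_le _).trans (by push_cast; exact h2.2)
      exact_mod_cast this
  -- same cell implies close
  have hclose : ∀ y ∈ A, dist y x ≤ r → ∀ y' ∈ A, dist y' x ≤ r → c0 y = c0 y' →
      dist y y' ≤ 3 * rho * r := by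
    intro y hy hyx y' hy' hyx' hcc
    have e1 := hflat y hy hyx
    have e2 := hflat y' hy' hyx'
    have e3 : ‖L.starProjection (y - x) - L.starProjection (y' - x)‖ ≤ rho * r := by
      have h1 : L.starProjection (y - x) - L.starProjection (y' - x)
          = ((L.orthogonalProjectionOnto (y - x) - L.orthogonalProjectionOnto (y' - x) : L) : E) := by
        simp only [Submodule.starProjection_apply, Submodule.coe_sub]
      rw [h1]
      have h1' : ‖((L.orthogonalProjectionOnto (y - x) - L.orthogonalProjectionOnto (y' - x) : L) : E)‖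
          = ‖b.repr (L.orthogonalProjectionOnto (y - x) - L.orthogonalProjectionOnto (y' - x))‖ := by
        rw [b.repr.norm_map]; rfl
      rw [h1', map_sub, EuclideanSpace.norm_eq]
      have h2 : ∀ i : Fin k, ‖(b.repr (L.orthogonalProjectionOnto (y - x)) -
          b.repr (L.orthogonalProjectionOnto (y' - x))) i‖ ≤ δ * r := by
        intro i
        have hid : (i : ℕ) < d := lt_of_lt_of_le i.2 hL
        have h3 := congrFun hcc ⟨i, hid⟩
        have h4 : co y ⟨i, hid⟩ = b.repr (L.orthogonalProjectionOnto (y - x)) i := by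
          simp [co]
        have h5 : co y' ⟨i, hid⟩ = b.repr (L.orthogonalProjectionOnto (y' - x)) i := by
          simp [co]
        have h6 := Int.abs_sub_lt_one_of_floor_eq_floor h3
        rw [h4, h5, ← sub_div, abs_div, abs_of_pos (show 0 < δ * r by positivity),
          div_lt_one (by positivity)] at h6
        rw [PiLp.sub_apply, Real.norm_eq_abs]
        exact h6.le
      have h7 : ∑ i : Fin k, ‖(b.repr (L.orthogonalProjectionOnto (y - x)) -
          b.repr (L.orthogonalProjectionOnto (y' - x))) i‖ ^ 2 ≤ (k * (δ * r)) ^ 2 := by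
        calc ∑ i : Fin k, ‖(b.repr (L.orthogonalProjectionOnto (y - x)) -
          b.repr (L.orthogonalProjectionOnto (y' - x))) i‖ ^ 2
            ≤ ∑ _i : Fin k, (δ * r) ^ 2 := by
              apply Finset.sum_le_sum
              intro i _
              exact pow_le_pow_left₀ (norm_nonneg _) (h2 i) 2
          _ = k * (δ * r) ^ 2 := by simp
          _ ≤ (k * (δ * r)) ^ 2 := by
              have h8 : (k : ℝ) ≤ (k : ℝ) ^ 2 := by
                exact_mod_cast Nat.le_self_pow (by norm_num) k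
              calc (k : ℝ) * (δ * r) ^ 2 ≤ (k : ℝ) ^ 2 * (δ * r) ^ 2 :=
                    mul_le_mul_of_nonneg_right h8 (by positivity)
                _ = (k * (δ * r)) ^ 2 := by ring
      calc √(∑ i : Fin k, ‖(b.repr (L.orthogonalProjectionOnto (y - x)) -
          b.repr (L.orthogonalProjectionOnto (y' - x))) i‖ ^ 2)
          ≤ √((k * (δ * r)) ^ 2) := Real.sqrt_le_sqrt h7
        _ = k * (δ * r) := Real.sqrt_sq (by positivity)
        _ ≤ (d + 1) * (δ * r) := by
            have : (k : ℝ) ≤ d := by exact_mod_cast hL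
            have hpos : 0 ≤ δ * r := by positivity
            nlinarith
        _ = rho * r := by rw [hδ]; field_simp
    have e4 : y - y' = ((y - x) - L.starProjection (y - x)) -
        ((y' - x) - L.starProjection (y' - x)) +
        (L.starProjection (y - x) - L.starProjection (y' - x)) := by abel
    rw [dist_eq_norm, e4]
    calc _ ≤ ‖((y - x) - L.starProjection (y - x)) -
        ((y' - x) - L.starProjection (y' - x))‖ +
        ‖L.starProjection (y - x) - L.starProjection (y' - x)‖ := norm_add_le _ _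
      _ ≤ (‖(y - x) - L.starProjection (y - x)‖ + ‖(y' - x) - L.starProjection (y' - x)‖) +
        ‖L.starProjection (y - x) - L.starProjection (y' - x)‖ := by
          have := norm_sub_le ((y - x) - L.starProjection (y - x))
            ((y' - x) - L.starProjection (y' - x))
          linarith
      _ ≤ 3 * rho * r := by linarith
  -- choose representatives
  let g : Idx → E := fun idx =>
    if h : ∃ y ∈ A, dist y x ≤ r ∧ c0 y = fun i => (idx i : ℤ) then h.choose else x
  refine ⟨Finset.univ.image g, ?_, ?_, ?_⟩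
  · intro z hz
    simp only [Finset.coe_image, Finset.coe_univ, image_univ, mem_range] at hz
    obtain ⟨idx, rfl⟩ := hz
    simp only [g]
    split_ifs with h
    · exact h.choose_spec.1
    · exact hx
  · calc (Finset.univ.image g).card ≤ (Finset.univ : Finset Idx).card := Finset.card_image_le
      _ = cellNum d rho := by
        simp only [Idx, Finset.card_univ, Fintype.card_pi, Fintype.card_coe, Finset.prod_const,
          Fintype.card_fin, cellNum, Int.card_Icc]
        congr 1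
        rw [← hM]
        omega
  · intro y hy
    obtain ⟨hyA, hyx⟩ := hy
    rw [Metric.mem_closedBall] at hyx
    let idx : Idx := fun i => ⟨c0 y i, hc0 y hyx i⟩
    have hex : ∃ y' ∈ A, dist y' x ≤ r ∧ c0 y' = fun i => (idx i : ℤ) := ⟨y, hyA, hyx, rfl⟩
    have hg : g idx = hex.choose := by simp only [g]; rw [dif_pos hex]
    obtain ⟨p1, p2, p3⟩ := hex.choose_spec
    rw [mem_iUnion₂]
    refine ⟨g idx, Finset.mem_image_of_mem _ (Finset.mem_univ _), ?_⟩
    rw [Metric.mem_closedBall, hg]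
    exact hclose y hyA hyx _ p1 p2 (by rw [p3])

/-- every set is flat in the full dimension -/
lemma flatPt_top {rho r : ℝ} (h0 : 0 < rho) (hr : 0 < r) (A : Set E) (x : E) :
    FlatPt (Module.finrank ℝ E) rho r A x := by
  refine ⟨⊤, by simp, fun y _ _ => ?_⟩
  have : ((⊤ : Submodule ℝ E).starProjection (y - x)) = y - x :=
    (Submodule.starProjection_eq_self_iff).2 Submodule.mem_top
  rw [this, sub_self, norm_zero]
  positivity

/-- the levels -/
noncomputable def lev (rho r0 : ℝ) (i : ℕ) : ℝ := (6 * rho) ^ i * r0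

lemma lev_pos {rho r0 : ℝ} (h0 : 0 < rho) (hr : 0 < r0) (i : ℕ) : 0 < lev rho r0 i := by
  unfold lev; positivity

lemma lev_succ (rho r0 : ℝ) (i : ℕ) : lev rho r0 (i + 1) = 3 * rho * (2 * lev rho r0 i) := by
  unfold lev; ring

/-- flatness at all non exceptional levels, few exceptional levels -/
def FlatExc (d : ℕ) (rho eta C0 r0 : ℝ) (A : Set E) : Prop :=
  ∃ bad : E → ℕ → Prop,
    (∀ x ∈ A, ∀ k : ℕ, (({i | i < k ∧ bad x i} : Set ℕ).ncard : ℝ) ≤ eta * k + C0) ∧
    (∀ x ∈ A, ∀ i, ¬ bad x i → FlatPt d rho (2 * lev rho r0 i) {y ∈ A | ¬ bad y i} x)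

section count

variable (A : Set E) (bad : E → ℕ → Prop) (d : ℕ) (rho : ℝ)

/-- the points with a given pattern of exceptional levels below `k` -/
def pat (k : ℕ) (σ : ℕ → Prop) : Set E := {x ∈ A | ∀ i < k, (bad x i ↔ σ i)}

open Classical in
/-- number of balls used at one level -/
noncomputable def cst (E : Type*) [NormedAddCommGroup E] [InnerProductSpace ℝ E] (d : ℕ)
    (rho : ℝ) (p : Prop) : ℕ :=
  if p then cellNum (Module.finrank ℝ E) rho else cellNum d rho

end count

lemma cover_pat (d : ℕ) {rho : ℝ} (h0 : 0 < rho) {r0 : ℝ} (hr0 : 0 < r0) {A : Set E}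
    {bad : E → ℕ → Prop}
    (hfl : ∀ x ∈ A, ∀ i, ¬ bad x i → FlatPt d rho (2 * lev rho r0 i) {y ∈ A | ¬ bad y i} x)
    {x0 : E} (hx0 : x0 ∈ A) (σ : ℕ → Prop) (k : ℕ) :
    ∃ F : Finset E, (F.card : ℕ) ≤ ∏ i ∈ Finset.range k, cst E d rho (σ i) ∧
      pat A bad k σ ∩ Metric.closedBall x0 r0 ⊆ ⋃ y ∈ F, Metric.closedBall y (lev rho r0 k) := by
  classical
  induction k with
  | zero =>
    refine ⟨{x0}, by simp, ?_⟩
    intro y hy
    simpa [lev] using hy.2
  | succ k ih =>
    obtain ⟨F, hFc, hFcov⟩ := ih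
    set B := pat A bad (k + 1) σ with hB
    have hBsub : B ⊆ pat A bad k σ := fun y hy => ⟨hy.1, fun i hi => hy.2 i (by omega)⟩
    have hlk := lev_pos (rho := rho) (r0 := r0) h0 hr0 k
    have hstep : ∀ y : E, ∃ G : Finset E, G.card ≤ cst E d rho (σ k) ∧
        B ∩ Metric.closedBall y (lev rho r0 k) ⊆
          ⋃ z ∈ G, Metric.closedBall z (lev rho r0 (k + 1)) := by
      intro y
      by_cases hne : (B ∩ Metric.closedBall y (lev rho r0 k)).Nonempty
      · obtain ⟨y', hy'B, hy'y⟩ := hne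
        have hsub : B ∩ Metric.closedBall y (lev rho r0 k)
            ⊆ B ∩ Metric.closedBall y' (2 * lev rho r0 k) := by
          rintro z ⟨hzB, hzy⟩
          refine ⟨hzB, ?_⟩
          rw [Metric.mem_closedBall] at hzy hy'y ⊢
          have := dist_triangle z y y'
          rw [dist_comm y y'] at this
          linarith
        have hflat : FlatPt (if σ k then Module.finrank ℝ E else d) rho (2 * lev rho r0 k) B y' := by
          by_cases hσ : σ k
          · rw [if_pos hσ]
            exact flatPt_top h0 (by positivity) B y'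
          · rw [if_neg hσ]
            have hnb : ¬ bad y' k := fun h => hσ ((hy'B.2 k (by omega)).1 h)
            obtain ⟨L, hL, hLf⟩ := hfl y' hy'B.1 k hnb
            refine ⟨L, hL, fun z hz hzd => hLf z ⟨hz.1, fun h => hσ ((hz.2 k (by omega)).1 h)⟩ hzd⟩
        obtain ⟨G, -, hGc, hGcov⟩ := cover_one _ h0 hy'B (by positivity) hflat
        refine ⟨G, ?_, ?_⟩
        · refine hGc.trans (le_of_eq ?_)
          unfold cst
          by_cases hσ : σ k
          · rw [if_pos hσ, if_pos hσ]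
          · rw [if_neg hσ, if_neg hσ]
        · refine hsub.trans (hGcov.trans ?_)
          rw [lev_succ]
      · refine ⟨∅, by simp, fun z hz => absurd ⟨z, hz⟩ hne⟩
    choose G hGc hGcov using hstep
    refine ⟨F.biUnion G, ?_, ?_⟩
    · rw [Finset.prod_range_succ]
      calc (F.biUnion G).card ≤ F.card * cst E d rho (σ k) :=
            Finset.card_biUnion_le_card_mul _ _ _ (fun y _ => hGc y)
        _ ≤ _ := Nat.mul_le_mul_right _ hFc
    · rintro z ⟨hzB, hzx⟩
      have h2 := hFcov ⟨hBsub hzB, hzx⟩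
      rw [mem_iUnion₂] at h2
      obtain ⟨y, hyF, hzy⟩ := h2
      have h3 := hGcov y ⟨hzB, hzy⟩
      rw [mem_iUnion₂] at h3 ⊢
      obtain ⟨w, hw, hzw⟩ := h3
      exact ⟨w, Finset.mem_biUnion.2 ⟨y, hyF, hw⟩, hzw⟩

/-- extension of a pattern on `Fin k` -/
def ext {k : ℕ} (τ : Fin k → Bool) (i : ℕ) : Prop := ∃ h : i < k, τ ⟨i, h⟩ = true

open Classical in
/-- the pattern of a point -/
noncomputable def patOf (bad : E → ℕ → Prop) (k : ℕ) (x : E) : Fin k → Bool :=
  fun i => decide (bad x i)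

lemma mem_pat {A : Set E} {bad : E → ℕ → Prop} {k : ℕ} {x : E} (hx : x ∈ A) :
    x ∈ pat A bad k (ext (patOf bad k x)) := by
  refine ⟨hx, fun i hi => ?_⟩
  unfold ext patOf
  constructor
  · intro h; exact ⟨hi, by simpa using h⟩
  · rintro ⟨h, h2⟩; simpa using h2

/-- number of `true` entries -/
def cnt {k : ℕ} (τ : Fin k → Bool) : ℕ := (Finset.univ.filter fun i => τ i = true).card

lemma cnt_patOf (bad : E → ℕ → Prop) (k : ℕ) (x : E) :
    cnt (patOf bad k x) = ({i | i < k ∧ bad x i} : Set ℕ).ncard := by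
  classical
  unfold cnt
  rw [← Set.ncard_coe_finset]
  have h1 : ({i | i < k ∧ bad x i} : Set ℕ)
      = (fun i : Fin k => (i : ℕ)) '' ((Finset.univ.filter fun i => patOf bad k x i = true :
        Finset (Fin k)) : Set (Fin k)) := by
    ext i
    simp only [mem_setOf_eq, mem_image, Finset.coe_filter, Finset.mem_univ, true_and, patOf,
      decide_eq_true_eq]
    constructor
    · rintro ⟨h, hb⟩; exact ⟨⟨i, h⟩, hb, rfl⟩
    · rintro ⟨j, hj, rfl⟩; exact ⟨j.2, hj⟩
  rw [h1, Set.ncard_image_of_injective _ Fin.val_injective]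

/-- weighted count of patterns -/
lemma sum_patterns (k : ℕ) (a b t : ℝ) (ht : 0 ≤ t) (ha : 0 ≤ a) (hb : 0 ≤ b) :
    ∑ τ : Fin k → Bool, t ^ cnt τ * ∏ i : Fin k, (if τ i = true then b else a) = (a + t * b) ^ k := by
  classical
  have h1 : ∀ τ : Fin k → Bool, t ^ cnt τ * ∏ i : Fin k, (if τ i = true then b else a)
      = ∏ i : Fin k, (if τ i = true then t * b else a) := by
    intro τ
    have h2 : t ^ cnt τ = ∏ i : Fin k, (if τ i = true then t else 1) := by
      unfold cnt
      rw [Finset.prod_ite]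
      simp
    rw [h2, ← Finset.prod_mul_distrib]
    refine Finset.prod_congr rfl fun i _ => ?_
    split_ifs <;> ring
  simp_rw [h1]
  have h3 := Finset.prod_univ_sum (κ := fun _ : Fin k => Bool) (fun _ : Fin k => (Finset.univ : Finset Bool))
    (fun _ (c : Bool) => if c = true then t * b else a)
  rw [Fintype.piFinset_univ] at h3
  rw [← h3]
  simp [add_comm]

lemma ext_iff {k : ℕ} (τ : Fin k → Bool) (i : Fin k) : ext τ i ↔ τ i = true := by
  unfold ext
  exact ⟨fun ⟨_, h⟩ => h, fun h => ⟨i.2, h⟩⟩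

lemma prod_cst (d : ℕ) (rho : ℝ) {k : ℕ} (τ : Fin k → Bool) :
    ((∏ i ∈ Finset.range k, cst E d rho (ext τ i) : ℕ) : ℝ)
      = ∏ i : Fin k, (if τ i = true then (cellNum (Module.finrank ℝ E) rho : ℝ)
          else (cellNum d rho : ℝ)) := by
  rw [Finset.prod_range]
  push_cast
  refine Finset.prod_congr rfl fun i _ => ?_
  unfold cst
  by_cases h : τ i = true
  · rw [if_pos ((ext_iff τ i).2 h), if_pos h]
  · rw [if_neg (fun h' => h ((ext_iff τ i).1 h')), if_neg h]

lemma card_bound (d : ℕ) {rho t M : ℝ} (ht : 0 < t) (ht1 : t ≤ 1) (k : ℕ)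
    (N : (Fin k → Bool) → ℕ)
    (hN : ∀ τ, N τ ≤ ∏ i ∈ Finset.range k, cst E d rho (ext τ i))
    (hN0 : ∀ τ, ¬ ((cnt τ : ℝ) ≤ M) → N τ = 0) :
    ∑ τ : Fin k → Bool, (N τ : ℝ) ≤ t ^ (-M) *
      ((cellNum d rho : ℝ) + t * cellNum (Module.finrank ℝ E) rho) ^ k := by
  classical
  set cd : ℝ := (cellNum d rho : ℝ) with hcd
  set cD : ℝ := (cellNum (Module.finrank ℝ E) rho : ℝ) with hcD
  have hcd0 : 0 ≤ cd := Nat.cast_nonneg _
  have hcD0 : 0 ≤ cD := Nat.cast_nonneg _
  have hterm : ∀ τ : Fin k → Bool, (N τ : ℝ)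
      ≤ t ^ (-M) * (t ^ cnt τ * ∏ i : Fin k, (if τ i = true then cD else cd)) := by
    intro τ
    have h6 : 0 ≤ ∏ i : Fin k, (if τ i = true then cD else cd) :=
      Finset.prod_nonneg fun i _ => by split_ifs <;> assumption
    by_cases hM : (cnt τ : ℝ) ≤ M
    · have h3 : (N τ : ℝ) ≤ ((∏ i ∈ Finset.range k, cst E d rho (ext τ i) : ℕ) : ℝ) := by
        exact_mod_cast hN τ
      rw [prod_cst] at h3
      have h4 : (1:ℝ) ≤ t ^ (-M) * t ^ cnt τ := by
        rw [← Real.rpow_natCast t (cnt τ), ← Real.rpow_add ht]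
        have h5 : -M + (cnt τ : ℝ) ≤ 0 := by linarith
        exact Real.one_le_rpow_of_pos_of_le_one_of_nonpos ht ht1 h5
      calc (N τ : ℝ) ≤ 1 * ∏ i : Fin k, (if τ i = true then cD else cd) := by
            rw [one_mul]; exact h3
        _ ≤ (t ^ (-M) * t ^ cnt τ) * ∏ i : Fin k, (if τ i = true then cD else cd) := by gcongr
        _ = _ := by ring
    · rw [hN0 τ hM]
      push_cast
      positivity
  calc ∑ τ : Fin k → Bool, (N τ : ℝ)
      ≤ ∑ τ : Fin k → Bool,
          t ^ (-M) * (t ^ cnt τ * ∏ i : Fin k, (if τ i = true then cD else cd)) :=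
        Finset.sum_le_sum fun τ _ => hterm τ
    _ = t ^ (-M) * (cd + t * cD) ^ k := by
        rw [← Finset.mul_sum, sum_patterns k cd cD t ht.le hcd0 hcD0]

lemma algebra_bound {rho s t eta C0 r0 c : ℝ} (h0 : 0 < rho) (ht : 0 < t) (hr0 : 0 < r0)
    (k : ℕ) : t ^ (-(eta * k + C0)) * c ^ k * (2 * lev rho r0 k) ^ s
      = (c * t ^ (-eta) * (6 * rho) ^ s) ^ k * (t ^ (-C0) * (2 * r0) ^ s) := by
  have e1 : 2 * lev rho r0 k = (6 * rho) ^ k * (2 * r0) := by unfold lev; ring
  have e2 : ((6 * rho) ^ k) ^ s = ((6 * rho) ^ s) ^ k :=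
    (Real.rpow_pow_comm (by positivity) s k).symm
  have e3 : t ^ (-(eta * k + C0)) = (t ^ (-eta)) ^ k * t ^ (-C0) := by
    rw [← Real.rpow_natCast (t ^ (-eta)) k, ← Real.rpow_mul ht.le, ← Real.rpow_add ht]
    congr 1; ring
  rw [e1, Real.mul_rpow (by positivity) (by positivity), e2, e3, mul_pow, mul_pow]
  ring

/-- The local measure estimate. -/
lemma hausdorff_zero_local_exc [MeasurableSpace E] [BorelSpace E] (d : ℕ) {rho s t eta C0 : ℝ}
    (h0 : 0 < rho) (h1 : 6 * rho < 1) (hs : 0 ≤ s) (ht : 0 < t) (ht1 : t ≤ 1)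
    (hlt : ((cellNum d rho : ℝ) + t * cellNum (Module.finrank ℝ E) rho) * t ^ (-eta)
      * (6 * rho) ^ s < 1) {r0 : ℝ} (hr0 : 0 < r0) {A : Set E}
    (hA : FlatExc d rho eta C0 r0 A) {x0 : E} (hx0 : x0 ∈ A) :
    μH[s] (A ∩ Metric.closedBall x0 r0) = 0 := by
  classical
  obtain ⟨bad, hcount, hfl⟩ := hA
  have hcov : ∀ (k : ℕ) (τ : Fin k → Bool), ∃ F : Finset E,
      F.card ≤ ∏ i ∈ Finset.range k, cst E d rho (ext τ i) ∧
      (¬ ((cnt τ : ℝ) ≤ eta * k + C0) → F.card = 0) ∧
      ((cnt τ : ℝ) ≤ eta * k + C0 → pat A bad k (ext τ) ∩ Metric.closedBall x0 r0 ⊆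
        ⋃ y ∈ F, Metric.closedBall y (lev rho r0 k)) := by
    intro k τ
    by_cases hM : (cnt τ : ℝ) ≤ eta * k + C0
    · obtain ⟨F, h1, h2⟩ := cover_pat d h0 hr0 hfl hx0 (ext τ) k
      exact ⟨F, h1, fun h => absurd hM h, fun _ => h2⟩
    · exact ⟨∅, by simp, fun _ => by simp, fun h => absurd h hM⟩
  choose F hFc hF0 hFcov using hcov
  set c : ℝ := (cellNum d rho : ℝ) + t * cellNum (Module.finrank ℝ E) rho with hc
  have hc0 : 0 ≤ c := by positivity
  set q : ℝ := c * t ^ (-eta) * (6 * rho) ^ s with hq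
  have hq0 : 0 ≤ q := by positivity
  have key := Measure.hausdorffMeasure_le_liminf_sum (l := (atTop : Filter ℕ))
    (ι := fun k => Σ τ : Fin k → Bool, F k τ) s (A ∩ Metric.closedBall x0 r0)
    (fun k => ENNReal.ofReal (2 * lev rho r0 k))
    (by
      have : Tendsto (fun k : ℕ => 2 * lev rho r0 k) atTop (𝓝 (2 * (0 * r0))) :=
        ((tendsto_pow_atTop_nhds_zero_of_lt_one (by positivity) h1).mul_const r0).const_mul 2
      have h2 := ENNReal.tendsto_ofReal this
      simpa using h2)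
    (fun k y => Metric.closedBall ((y.2 : E)) (lev rho r0 k))
    (Eventually.of_forall fun k y => by
      exact ediam_cb_le (y.2 : E) (lev_pos h0 hr0 k).le)
    (Eventually.of_forall fun k => by
      rintro z ⟨hzA, hzx⟩
      have h3 : (cnt (patOf bad k z) : ℝ) ≤ eta * k + C0 := by
        rw [cnt_patOf]
        exact hcount z hzA k
      have h2 := hFcov k (patOf bad k z) h3 ⟨mem_pat hzA, hzx⟩
      rw [mem_iUnion₂] at h2
      obtain ⟨y, hy, hz⟩ := h2
      exact mem_iUnion.2 ⟨⟨patOf bad k z, ⟨y, hy⟩⟩, hz⟩)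
  have hbound : ∀ k : ℕ, (∑ y : (Σ τ : Fin k → Bool, F k τ),
      Metric.ediam (Metric.closedBall ((y.2 : E)) (lev rho r0 k)) ^ s) ≤
      ENNReal.ofReal (q ^ k * (t ^ (-C0) * (2 * r0) ^ s)) := by
    intro k
    have hl := lev_pos (rho := rho) (r0 := r0) h0 hr0 k
    have hN := card_bound (E := E) d (rho := rho) ht ht1 k (fun τ => (F k τ).card) (hFc k)
      (M := eta * k + C0) (hF0 k)
    calc (∑ y : (Σ τ : Fin k → Bool, F k τ),
          Metric.ediam (Metric.closedBall ((y.2 : E)) (lev rho r0 k)) ^ s)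
        ≤ ∑ _y : (Σ τ : Fin k → Bool, F k τ), ENNReal.ofReal ((2 * lev rho r0 k) ^ s) := by
          apply Finset.sum_le_sum
          intro y _
          rw [← ENNReal.ofReal_rpow_of_nonneg (by positivity) hs]
          exact ENNReal.rpow_le_rpow (ediam_cb_le _ hl.le) hs
      _ = ((∑ τ : Fin k → Bool, (F k τ).card : ℕ) : ℝ≥0∞)
            * ENNReal.ofReal ((2 * lev rho r0 k) ^ s) := by
          rw [Finset.sum_const, Finset.card_univ, Fintype.card_sigma, nsmul_eq_mul]
          simp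
      _ ≤ ENNReal.ofReal (t ^ (-(eta * k + C0)) * c ^ k)
            * ENNReal.ofReal ((2 * lev rho r0 k) ^ s) := by
          gcongr
          rw [← ENNReal.ofReal_natCast]
          refine ENNReal.ofReal_le_ofReal ?_
          push_cast
          exact hN
      _ = ENNReal.ofReal (q ^ k * (t ^ (-C0) * (2 * r0) ^ s)) := by
          rw [← ENNReal.ofReal_mul (by positivity), algebra_bound h0 ht hr0]
  have hlim : Tendsto (fun k : ℕ => ENNReal.ofReal (q ^ k * (t ^ (-C0) * (2 * r0) ^ s)))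
      atTop (𝓝 0) := by
    have h2 := ((tendsto_pow_atTop_nhds_zero_of_lt_one hq0 hlt).mul_const
      (t ^ (-C0) * (2 * r0) ^ s))
    have h3 := ENNReal.tendsto_ofReal h2
    simpa using h3
  have h4 : liminf (fun k : ℕ => ∑ y : (Σ τ : Fin k → Bool, F k τ),
      Metric.ediam (Metric.closedBall ((y.2 : E)) (lev rho r0 k)) ^ s) atTop ≤ 0 := by
    calc _ ≤ liminf (fun k : ℕ => ENNReal.ofReal (q ^ k * (t ^ (-C0) * (2 * r0) ^ s))) atTop :=
          liminf_le_liminf (Eventually.of_forall hbound)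
      _ = 0 := hlim.liminf_eq
  exact le_antisymm (key.trans h4) bot_le

/-- The global measure estimate. -/
lemma hausdorff_zero_exc [MeasurableSpace E] [BorelSpace E] (d : ℕ) {rho s t eta C0 : ℝ}
    (h0 : 0 < rho) (h1 : 6 * rho < 1) (hs : 0 ≤ s) (ht : 0 < t) (ht1 : t ≤ 1)
    (hlt : ((cellNum d rho : ℝ) + t * cellNum (Module.finrank ℝ E) rho) * t ^ (-eta)
      * (6 * rho) ^ s < 1) {r0 : ℝ} (hr0 : 0 < r0) {A : Set E}
    (hA : FlatExc d rho eta C0 r0 A) : μH[s] A = 0 := by
  obtain ⟨u, huA, huc, hucov⟩ := TopologicalSpace.countable_cover_nhdsWithin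
    (s := A) (f := fun x => Metric.closedBall x r0)
    (fun x _ => mem_nhdsWithin_of_mem_nhds (Metric.closedBall_mem_nhds x hr0))
  have h2 : A ⊆ ⋃ x ∈ u, A ∩ Metric.closedBall x r0 := by
    intro y hy
    have := hucov hy
    rw [mem_iUnion₂] at this ⊢
    obtain ⟨x, hx, hyx⟩ := this
    exact ⟨x, hx, hy, hyx⟩
  refine measure_mono_null h2 ?_
  rw [measure_biUnion_null_iff huc]
  intro x hx
  exact hausdorff_zero_local_exc d h0 h1 hs ht ht1 hlt hr0 hA (huA hx)

/-- choice of the constants: for `s > d` there are `rho, eta, t` such that sets which are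
`(d, rho)`-flat with exceptional density `eta` are `H^s`-null -/
theorem exists_rho_eta (E : Type*) [NormedAddCommGroup E] [InnerProductSpace ℝ E]
    [FiniteDimensional ℝ E] (d : ℕ) {s : ℝ} (hs : (d : ℝ) < s) :
    ∃ rho : ℝ, 0 < rho ∧ 6 * rho < 1 ∧ ∃ eta : ℝ, 0 < eta ∧ ∃ t : ℝ, 0 < t ∧ t ≤ 1 ∧
      ((cellNum d rho : ℝ) + t * cellNum (Module.finrank ℝ E) rho) * t ^ (-eta)
        * (6 * rho) ^ s < 1 := by
  have hs0 : 0 < s := lt_of_le_of_lt (Nat.cast_nonneg d) hs
  have hlim : Tendsto (fun rho : ℝ => (2 * (d : ℝ) + 5) ^ d * 6 ^ s * rho ^ (s - d))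
      (𝓝[>] 0) (𝓝 0) := by
    have h1 : Tendsto (fun rho : ℝ => rho ^ (s - d)) (𝓝[>] 0) (𝓝 (0 ^ (s - (d : ℝ)))) := by
      apply Tendsto.mono_left _ nhdsWithin_le_nhds
      exact (Real.continuousAt_rpow_const 0 (s - d) (Or.inr (by linarith))).tendsto
    rw [Real.zero_rpow (by linarith)] at h1
    have h2 := h1.const_mul ((2 * (d : ℝ) + 5) ^ d * 6 ^ s)
    simpa using h2
  have h3 : ∀ᶠ rho in 𝓝[>] (0 : ℝ), (2 * (d : ℝ) + 5) ^ d * 6 ^ s * rho ^ (s - d) < 1 / 4 :=
    hlim.eventually_lt_const (by norm_num)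
  have h4 : ∀ᶠ rho in 𝓝[>] (0 : ℝ), 6 * rho < 1 := by
    have : ∀ᶠ rho in 𝓝 (0 : ℝ), 6 * rho < 1 := by
      have hc : ContinuousAt (fun rho : ℝ => 6 * rho) 0 := by fun_prop
      exact hc.eventually_lt_const (by norm_num)
    exact this.filter_mono nhdsWithin_le_nhds
  obtain ⟨rho, ⟨h5, h6⟩, h7⟩ := ((h3.and h4).and self_mem_nhdsWithin).exists
  have h7' : 0 < rho := h7
  refine ⟨rho, h7', h6, ?_⟩
  have hcell : (cellNum d rho : ℝ) * (6 * rho) ^ s < 1 / 4 := by
    refine lt_of_le_of_lt ?_ h5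
    calc (cellNum d rho : ℝ) * (6 * rho) ^ s ≤ ((2 * d + 5) / rho) ^ d * (6 * rho) ^ s := by
          gcongr
          exact cellNum_le d h7' (by linarith)
      _ = (2 * (d : ℝ) + 5) ^ d * 6 ^ s * rho ^ (s - d) := by
          rw [Real.mul_rpow (by norm_num) h7'.le, div_pow, Real.rpow_sub h7', Real.rpow_natCast]
          field_simp
  have hcd1 : (1:ℝ) ≤ cellNum d rho := by
    have : 1 ≤ cellNum d rho := by
      unfold cellNum
      exact Nat.one_le_pow _ _ (by omega)
    exact_mod_cast this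
  set cD : ℝ := (cellNum (Module.finrank ℝ E) rho : ℝ) with hcD
  have hcD1 : (1:ℝ) ≤ cD := by
    have : 1 ≤ cellNum (Module.finrank ℝ E) rho := by
      unfold cellNum
      exact Nat.one_le_pow _ _ (by omega)
    rw [hcD]
    exact_mod_cast this
  -- `t` with `t * cD ≤ 1`
  set t : ℝ := 1 / cD with ht
  have ht0 : 0 < t := by positivity
  have ht1 : t ≤ 1 := by rw [ht, div_le_one (by linarith)]; exact hcD1
  have htc : t * cD = 1 := by rw [ht]; field_simp
  -- `eta` with `t ^ (-eta) ≤ 2`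
  have hcont : Tendsto (fun eta : ℝ => t ^ (-eta)) (𝓝[>] 0) (𝓝 (t ^ (-(0:ℝ)))) := by
    refine Tendsto.mono_left ?_ nhdsWithin_le_nhds
    have : Continuous fun eta : ℝ => t ^ (-eta) :=
      Real.continuous_const_rpow ht0.ne' |>.comp continuous_neg
    exact this.tendsto 0
  rw [neg_zero, Real.rpow_zero] at hcont
  obtain ⟨eta, he1, he2⟩ := ((hcont.eventually (gt_mem_nhds (show (1:ℝ) < 2 by norm_num))).and
    self_mem_nhdsWithin).exists
  refine ⟨eta, he2, t, ht0, ht1, ?_⟩
  rw [htc]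
  have h8 : 0 < (6 * rho) ^ s := by positivity
  calc ((cellNum d rho : ℝ) + 1) * t ^ (-eta) * (6 * rho) ^ s
      ≤ (2 * (cellNum d rho : ℝ)) * 2 * (6 * rho) ^ s := by
        have h9 : 0 ≤ t ^ (-eta) := by positivity
        gcongr
        linarith
    _ = 4 * ((cellNum d rho : ℝ) * (6 * rho) ^ s) := by ring
    _ < 1 := by linarith

/-- **Covering lemma with exceptional scales.** -/
theorem dimH_le_of_flat_exc (A : Set E) (d : ℕ)
    (H : ∀ rho : ℝ, 0 < rho → 6 * rho < 1 → ∀ eta : ℝ, 0 < eta → ∃ Aj : ℕ → Set E,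
      A ⊆ ⋃ j, Aj j ∧ ∀ j, ∃ r0 : ℝ, 0 < r0 ∧ ∃ C0 : ℝ, FlatExc d rho eta C0 r0 (Aj j)) :
    dimH A ≤ d := by
  borelize E
  refine le_of_forall_gt_imp_ge_of_dense (fun b hb => ?_)
  obtain ⟨s, hs1, hs2⟩ := ENNReal.lt_iff_exists_nnreal_btwn.1 hb
  have hds : (d : ℝ) < s := by
    have : ((d : ℝ≥0) : ℝ≥0∞) < (s : ℝ≥0∞) := by simpa using hs1
    have h2 := ENNReal.coe_lt_coe.1 this
    exact_mod_cast h2
  obtain ⟨rho, h0, h1, eta, heta, t, ht, ht1, hlt⟩ := exists_rho_eta E d hds
  obtain ⟨Aj, hcov, hAj⟩ := H rho h0 h1 eta heta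
  have hzero : μH[(s : ℝ)] A = 0 := by
    refine measure_mono_null hcov ?_
    rw [measure_iUnion_null_iff]
    intro j
    obtain ⟨r0, hr0, C0, hfl⟩ := hAj j
    exact hausdorff_zero_exc d h0 h1 s.2 ht ht1 hlt hr0 hfl
  have h3 : dimH A ≤ s := dimH_le_of_hausdorffMeasure_ne_top (by rw [hzero]; simp)
  exact h3.trans hs2.le

end Vale.Agent.P214.DIM
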