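import Vale.Agent.P214.DIM.PMain
import Vale.Agent.P214.DIM.H964.Main

/-!
# P214, block DIM: the singular points which are not flat at a power rate
-/

open Set Filter Topology MeasureTheory Metric
open scoped RealInnerProductSpace ENNReal NNReal

set_option linter.all false

namespace Vale.Agent.P214.DIM

open Vale.Agent.P214.HS

variable {E : Type*} [NormedAddCommGroup E] [InnerProductSpace ℝ E] [FiniteDimensional ℝ E]
  [MeasurableSpace E] [BorelSpace E]

/-- power decay of the smoothed quantities gives flatness at a power rate -/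
theorem PowDec.powerFlat {m : ℕ} (hm : 1 ≤ m) {U : Set E} (hU : IsOpen U)
    {V : IntegralVarifold m U} (hst : V.IsStationary) {x : E} (hx : x ∈ V.spt)
    (h : PowDec V x) : V.PowerFlat x := by
  obtain ⟨x₁, R, r₀, Q, A, β, hR, hr₀, hb, hQ, hA, hβ, hd⟩ := h
  exact powerFlat_of_decay hm hU hst hR hx hr₀ hb hQ hA hβ (fun r h1 h2 => (hd r h1 h2).1)
    fun r h1 h2 => (hd r h1 h2).2

/-- **The singular points at which `V` is not flat at a power rate form a set of dimension at most
`m - 1`.** -/
theorem dimH_not_powerFlat {m : ℕ} (hm : 1 ≤ m) {U : Set E} (hU : IsOpen U)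
    {V : IntegralVarifold m U} (hst : V.IsStationary) :
    dimH {x ∈ V.sing | ¬ V.PowerFlat x} ≤ ((m - 1 : ℕ) : ℝ≥0∞) := by
  have hsub : {x ∈ V.sing | ¬ V.PowerFlat x} ⊆ {x ∈ V.sing | ¬ PowDec V x} := by
    rintro x ⟨hx, hn⟩
    exact ⟨hx, fun h => hn (h.powerFlat hm hU hst hx.1)⟩
  exact (dimH_mono hsub).trans (dimH_not_powDec hm hU hst)

end Vale.Agent.P214.DIM
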