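import Vale.Agent.P214.DIM.MB

/-!
# P214, block DIM: the density is an integer at points with a blow-up plane
-/

open Set Filter Topology MeasureTheory Metric
open scoped RealInnerProductSpace ENNReal NNReal

set_option linter.all false

namespace Vale.Agent.P214.DIM

open Vale.Agent.P214.HS

variable {E : Type*} [NormedAddCommGroup E] [InnerProductSpace ℝ E] [FiniteDimensional ℝ E]
  [MeasurableSpace E] [BorelSpace E]

variable {m : ℕ} {U : Set E} {V : IntegralVarifold m U}

/-- sup bound of the height on the support -/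
lemma sup_height (hst : V.IsStationary) {x₁ x : E} {R₁ r : ℝ} (hR : closedBall x₁ R₁ ⊆ U)
    (hr : 0 < r) (hb : closedBall x r ⊆ ball x₁ R₁) (T : Submodule ℝ E) {y : E} (hy : y ∈ V.spt)
    (hyx : ‖y - x‖ ≤ r / 4) :
    ‖FV.co T (y - x)‖ ^ 2 ≤ 2 * 4 ^ m / cg m * r ^ 2 * height m (nu V x₁ R₁) T x r := by
  have hcg := cg_pos m
  have hfin : IsFiniteMeasure (nu V x₁ R₁) := V.finite_restrict hR
  have hls : LocStat m (ball x₁ R₁) (nu V x₁ R₁) (fun y => proj (V.tangent y)) := V.locStat hst hR
  have hdl : DensLow m (ball x₁ R₁) (nu V x₁ R₁) (cg m) := V.densLow (x := x₁) (R := R₁)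
  have hyO : y ∈ ball x₁ R₁ := hb (by rw [mem_closedBall, dist_eq_norm]; linarith)
  have h1 := hsq_le_height (T := T) hls hdl hr hb (V.mem_support hy hyO) hyx
  have e : hsq T x y = ‖FV.co T (y - x)‖ ^ 2 := by unfold hsq; rw [FV.co_eq]
  rw [e] at h1
  have h2 : 2 * 4 ^ m / cg m * r ^ 2 * height m (nu V x₁ R₁) T x r
      = (2 * 4 ^ m * r ^ 2 * height m (nu V x₁ R₁) T x r) / cg m := by ring
  rw [h2, le_div_iff₀ hcg]
  linarith

/-- near a flat scale the mass ratio is close to an integer -/
theorem near_nat (m : ℕ) {M ε : ℝ} (hM : 0 < M) (hε : 0 < ε) : ∃ η : ℝ, 0 < η ∧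
    ∀ (U : Set E) (V : IntegralVarifold m U), V.IsStationary → ∀ (x₁ x : E) (R₁ r : ℝ),
      closedBall x₁ R₁ ⊆ U → 0 < r → closedBall x r ⊆ ball x₁ R₁ →
      ratio m (nu V x₁ R₁) x r ≤ M →
      ∀ T : Submodule ℝ E, Module.finrank ℝ T = m → height m (nu V x₁ R₁) T x r ≤ η →
        ∃ q : ℕ, |ratio m (nu V x₁ R₁) x (r / 16) / cg m - q| ≤ ε := by
  have hcg := cg_pos m
  obtain ⟨δ, hδ, hmain⟩ := INT.thmN (E := E) m (2 * M * 16 ^ m) (ε / 2) (by positivity)
    (by positivity)
  set K₁ : ℝ := 2 * 4 ^ m / cg m with hK₁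
  have hK₁0 : 0 < K₁ := by positivity
  set K₂ : ℝ := 2 * K₁ * 256 * (2 * M) * 16 ^ m with hK₂
  have hK₂0 : 0 < K₂ := by positivity
  set η : ℝ := min (1 / (4096 * K₁)) (min (cg m * ε / (2 * K₂)) (δ / (512 * 8 ^ m))) with hη
  have hη0 : 0 < η := lt_min (by positivity) (lt_min (by positivity) (by positivity))
  have hη1 : η ≤ 1 / (4096 * K₁) := min_le_left _ _
  have hη2 : η ≤ cg m * ε / (2 * K₂) := (min_le_right _ _).trans (min_le_left _ _)
  have hη3 : η ≤ δ / (512 * 8 ^ m) := (min_le_right _ _).trans (min_le_right _ _)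
  refine ⟨η, hη0, ?_⟩
  intro U V hst x₁ x R₁ r hR hr hb hratio T hT hh
  set ν := nu V x₁ R₁ with hν
  have hfin : IsFiniteMeasure ν := V.finite_restrict hR
  have hls : LocStat m (ball x₁ R₁) ν (fun y => proj (V.tangent y)) := V.locStat hst hR
  set H := height m ν T x r with hH
  have hH0 : 0 ≤ H := height_nonneg hr
  have hsup : ∀ y ∈ V.spt, ‖y - x‖ ≤ r / 4 → ‖FV.co T (y - x)‖ ^ 2 ≤ K₁ * r ^ 2 * H :=
    fun y hy hyx => sup_height hst hR hr hb T hy hyx
  have hsup2 : K₁ * r ^ 2 * H ≤ (r / 64) ^ 2 := by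
    calc K₁ * r ^ 2 * H ≤ K₁ * r ^ 2 * (1 / (4096 * K₁)) := by
          gcongr
          exact hh.trans hη1
      _ = (r / 64) ^ 2 := by field_simp; norm_num
  have hflat : ∀ y ∈ V.spt, ‖y - x‖ ≤ r / 4 → ‖FV.co T (y - x)‖ ≤ r / 64 := by
    intro y hy hyx
    have h1 := (hsup y hy hyx).trans hsup2
    exact (pow_le_pow_iff_left₀ (norm_nonneg _) (by positivity) two_ne_zero).1 h1
  obtain ⟨S, θ, J, hI⟩ := exists_int hst hR hr hb hT hflat
  rw [← hν] at hI
  set νc := ν.restrict (box T x r) with hνc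
  set z := T.starProjection x with hz
  have hzz : T.starProjection z = z := star_star' T x
  have hmass : ν.real (closedBall x (r / 2)) ≤ 2 * M * r ^ m := by
    have h1 := mass_half_le (m := m) (ν := ν) (x := x) hr
    have h3 : r ^ m * ratio m ν x r ≤ r ^ m * M := by gcongr
    have h4 : 0 ≤ r ^ m * M := by positivity
    linarith
  have hht : ∀ᵐ y ∂ν, y ∈ box T x r → ‖FV.co T (y - x)‖ ^ 2 ≤ K₁ * r ^ 2 * H := by
    have h1 : ∀ᵐ y ∂ν, y ∈ V.spt := ae_restrict_of_ae V.ae_mem_spt
    filter_upwards [h1] with y hy hyb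
    have h2 := box_subset T x hr hyb
    rw [mem_ball, dist_eq_norm] at h2
    exact hsup y hy h2.le
  have hmcyl : ∀ s, MeasurableSet (INT.cyl T z s) := fun s =>
    (isOpen_ball.preimage T.starProjection.continuous).measurableSet
  have htilt : ∀ A : Set E, MeasurableSet A → ∫ y in A, INT.tilt (fun y => proj (V.tangent y)) T y ^ 2 ∂νc
      ≤ 512 * r ^ m * H := by
    intro A hA
    have h1 := tiltsq_le_height hls hr hb hT
    have hint := hls.integrableOn_tiltsq T.starProjection (closedBall x (r / 4))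
    rw [hνc, Measure.restrict_restrict hA]
    refine le_trans ?_ h1
    refine setIntegral_mono_set hint (Eventually.of_forall fun y => by
      simp only [Pi.zero_apply]; positivity) (Eventually.of_forall ?_)
    exact inter_subset_right.trans ((box_subset T x hr).trans ball_subset_closedBall)
  obtain ⟨q, hq⟩ := hmain T _ _ νc _ S θ J hI z (r / 16) (by positivity) (by
      rw [hzz]; exact ball_subset_ball (by linarith)) (by
      have h1 : νc.real (INT.cyl T z (2 * (r / 16))) ≤ ν.real (closedBall x (r / 2)) := by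
        rw [hνc, measureReal_restrict_apply (hmcyl _)]
        refine measureReal_mono ?_
        exact inter_subset_right.trans ((box_subset T x hr).trans (ball_subset_closedBall.trans
          (closedBall_subset_closedBall (by linarith))))
      refine (h1.trans hmass).trans (le_of_eq ?_)
      rw [div_pow]; field_simp) (by
      unfold INT.exc
      rw [div_le_iff₀ (by positivity)]
      refine (htilt _ (hmcyl _)).trans ?_
      calc 512 * r ^ m * H ≤ 512 * r ^ m * (δ / (512 * 8 ^ m)) := by
            gcongr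
            exact hh.trans hη3
        _ = δ * (2 * (r / 16)) ^ m := by
            have : 2 * (r / 16) = r / 8 := by ring
            rw [this, div_pow]
            field_simp)
  refine ⟨q, ?_⟩
  have h1 := ratio_le_htot (m := m) (ν := ν) (T := T) (x := x) (r := r) (s := r / 16)
      (by positivity) (by linarith)
  have h2 := htot_le_ratio (m := m) (ν := ν) (T := T) (x := x) (r := r) (s := r / 16)
      (K := K₁ * r ^ 2 * H) hr (by positivity) (by positivity) hht
  have h5 : 2 * (K₁ * r ^ 2 * H) / (r / 16) ^ 2 * ν.real (closedBall x (r / 2)) / (r / 16) ^ m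
        ≤ K₂ * η := by
      calc 2 * (K₁ * r ^ 2 * H) / (r / 16) ^ 2 * ν.real (closedBall x (r / 2)) / (r / 16) ^ m
          ≤ 2 * (K₁ * r ^ 2 * η) / (r / 16) ^ 2 * (2 * M * r ^ m)
              / (r / 16) ^ m := by gcongr
        _ = K₂ * η := by rw [hK₂, div_pow r 16 m]; field_simp; ring
  have h6 : K₂ * η ≤ cg m * ε / 2 := by
    calc K₂ * η ≤ K₂ * (cg m * ε / (2 * K₂)) := by gcongr
      _ = cg m * ε / 2 := by field_simp
  have h7 : |ratio m ν x (r / 16) / cg m - INT.htot m T νc z (r / 16) / cg m| ≤ ε / 2 := by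
    rw [← sub_div, abs_div, abs_of_pos hcg, div_le_iff₀ hcg, abs_le]
    constructor <;> linarith
  calc |ratio m ν x (r / 16) / cg m - q|
      = |(ratio m ν x (r / 16) / cg m - INT.htot m T νc z (r / 16) / cg m)
          + (INT.htot m T νc z (r / 16) / cg m - q)| := by congr 1; ring
    _ ≤ ε / 2 + ε / 2 := (abs_add_le _ _).trans (add_le_add h7 hq)
    _ = ε := by ring

/-- **Integrality of the density at points with a blow-up plane.** -/
theorem theta_nat (hU : IsOpen U) (hst : V.IsStationary) {x : E} (hx : x ∈ V.spt)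
    {T : Submodule ℝ E} (hT : V.IsBlowupPlane x T) : ∃ Q : ℕ, V.theta x = Q := by
  have hcg := cg_pos m
  obtain ⟨hTm, hbl⟩ := hT
  obtain ⟨R, hR0, hR⟩ : ∃ R > 0, closedBall x R ⊆ U :=
    nhds_basis_closedBall.mem_iff.1 (hU.mem_nhds hx.1)
  set ν := nu V x R with hν
  have hfin : IsFiniteMeasure ν := V.finite_restrict hR
  have hls : LocStat m (ball x R) ν (fun y => proj (V.tangent y)) := V.locStat hst hR
  have hlim := hls.tendsto_ratio (mem_ball_self hR0)
  have hθ : MU.theta m ν x = V.theta x := V.theta_restrict (mem_ball_self hR0)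
  rw [hθ] at hlim
  have hclosed : IsClosed (range ((↑) : ℕ → ℝ)) := Nat.isClosedEmbedding_coe_real.isClosed_range
  have hmem : V.theta x ∈ closure (range ((↑) : ℕ → ℝ)) := by
    rw [Metric.mem_closure_iff]
    intro ε hε
    have hM : 0 < cg m * |V.theta x| + 1 := by positivity
    obtain ⟨η, hη, H⟩ := near_nat (E := E) m hM (show 0 < ε / 4 by positivity)
    -- good radii
    have e1 : ∀ᶠ r in 𝓝[>] (0:ℝ), |ratio m ν x r / cg m - V.theta x| < ε / 4 := by
      have h1 : Tendsto (fun r => ratio m ν x r / cg m) (𝓝[>] 0) (𝓝 (V.theta x)) := by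
        have := hlim.div_const (cg m)
        rwa [mul_div_cancel_left₀ _ hcg.ne'] at this
      have h2 := h1.eventually (Metric.ball_mem_nhds _ (show 0 < ε / 4 by positivity))
      filter_upwards [h2] with r hr
      rwa [Real.dist_eq] at hr
    have e2 : ∀ᶠ r in 𝓝[>] (0:ℝ), |ratio m ν x r - cg m * V.theta x|
        < min 1 (η / (8 * 4 ^ (m + 2))) := by
      have h2 := hlim.eventually (Metric.ball_mem_nhds _
        (show 0 < min 1 (η / (8 * 4 ^ (m + 2))) by positivity))
      filter_upwards [h2] with r hr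
      rwa [Real.dist_eq] at hr
    have hmul : ∀ c : ℝ, 0 < c → Tendsto (fun r : ℝ => c * r) (𝓝[>] 0) (𝓝[>] 0) := by
      intro c hc
      refine tendsto_nhdsWithin_iff.2 ⟨?_, ?_⟩
      · have : Tendsto (fun r : ℝ => c * r) (𝓝 0) (𝓝 (c * 0)) := tendsto_id.const_mul c
        rw [mul_zero] at this
        exact this.mono_left nhdsWithin_le_nhds
      · filter_upwards [self_mem_nhdsWithin] with r hr
        have : (0:ℝ) < r := hr
        show 0 < c * r
        positivity
    have e3 := (hmul (1 / 16) (by norm_num)).eventually e1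
    have e4 := (hmul 2 (by norm_num)).eventually e2
    have e5 := (hmul 4 (by norm_num)).eventually e2
    have e6 : ∀ᶠ r in 𝓝[>] (0:ℝ), r ∈ Ioo 0 (R / 4) := Ioo_mem_nhdsGT (by positivity)
    obtain ⟨r, hr, h1, h2, h3, h4, h5⟩ := ((hbl (η / 8) (by positivity)).and_eventually
      (e3.and (e4.and (e5.and (e2.and e6))))).exists
    have hr0 : 0 < r := h5.1
    have hrR : r < R / 4 := h5.2
    have hmin1 : min 1 (η / (8 * 4 ^ (m + 2))) ≤ 1 := min_le_left _ _
    have hmin2 : min 1 (η / (8 * 4 ^ (m + 2))) ≤ η / (8 * 4 ^ (m + 2)) := min_le_right _ _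
    have h2' := abs_lt.1 h2
    have h3' := abs_lt.1 h3
    have h4' := abs_lt.1 h4
    have hheight : height m ν T x r ≤ η := by
      have h7 := height_le_tilt hls hr0 (closedBall_subset_ball (by linarith)) T
      have h8 : ∫ z in ball x r, ‖proj (V.tangent z) - T.starProjection‖ ^ 2 ∂ν ≤ η / 8 * r ^ m := by
        have e : ∫ z in ball x r, ‖proj (V.tangent z) - T.starProjection‖ ^ 2 ∂ν
            = ∫ z in ball x r, ‖proj (V.tangent z) - proj T‖ ^ 2 ∂V.weight := by
          rw [hν]
          unfold nu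
          rw [Measure.restrict_restrict measurableSet_ball, inter_eq_left.2
            (ball_subset_closedBall.trans (closedBall_subset_closedBall (by linarith)))]
          rfl
        rw [e]; exact hr
      have h9 : ratio m ν x (4 * r) - ratio m ν x (2 * r) ≤ 2 * (η / (8 * 4 ^ (m + 2))) := by
        linarith
      have h10 : 2 * 4 ^ (m + 2) * (ratio m ν x (4 * r) - ratio m ν x (2 * r)) ≤ η / 2 := by
        calc _ ≤ 2 * 4 ^ (m + 2) * (2 * (η / (8 * 4 ^ (m + 2)))) := by gcongr
          _ = η / 2 := by field_simp; norm_num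
      have h11 : 2 * (∫ z in ball x r, ‖proj (V.tangent z) - T.starProjection‖ ^ 2 ∂ν) / r ^ m
          ≤ η / 4 := by
        rw [div_le_iff₀ (by positivity)]
        linarith
      linarith
    have hratio : ratio m ν x r ≤ cg m * |V.theta x| + 1 := by
      have : cg m * V.theta x ≤ cg m * |V.theta x| := by
        gcongr; exact le_abs_self _
      linarith
    obtain ⟨q, hq⟩ := H U V hst x x R r hR hr0 (closedBall_subset_ball (by linarith)) hratio T
      hTm hheight
    refine ⟨q, ⟨q, rfl⟩, ?_⟩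
    rw [Real.dist_eq]
    have e : (1 / 16 : ℝ) * r = r / 16 := by ring
    rw [e] at h1
    have h12 : V.theta x - q = -(ratio m ν x (r / 16) / cg m - V.theta x)
        + (ratio m ν x (r / 16) / cg m - q) := by ring
    rw [h12]
    calc _ ≤ |-(ratio m ν x (r / 16) / cg m - V.theta x)|
          + |ratio m ν x (r / 16) / cg m - q| := abs_add_le _ _
      _ < ε / 4 + ε / 2 := by
          rw [abs_neg]
          linarith
      _ < ε := by linarith
  rw [hclosed.closure_eq] at hmem
  obtain ⟨Q, hQ⟩ := hmem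
  exact ⟨Q, hQ.symm⟩

end Vale.Agent.P214.DIM
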