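import Vale.Agent.P214.DIM.PDec
import Vale.Agent.P214.DIM.Integral

/-!
# P214, block DIM: the set where power decay fails has dimension at most `m - 1`
-/

open Set Filter Topology MeasureTheory Metric
open scoped RealInnerProductSpace ENNReal NNReal

set_option linter.all false

namespace Vale.Agent.P214.DIM

open Vale.Agent.P214.HS

variable {E : Type*} [NormedAddCommGroup E] [InnerProductSpace ℝ E] [FiniteDimensional ℝ E]
  [MeasurableSpace E] [BorelSpace E]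

/-- power decay of the optimal height and of the mass excess, in terms of the smoothed
quantities -/
def PowDec {m : ℕ} {U : Set E} (V : IntegralVarifold m U) (x : E) : Prop :=
  ∃ (x₁ : E) (R r₀ : ℝ) (Q : ℕ) (A β : ℝ), closedBall x₁ R ⊆ U ∧ 0 < r₀ ∧
    closedBall x r₀ ⊆ ball x₁ R ∧ V.theta x = Q ∧ 0 ≤ A ∧ 0 < β ∧ ∀ r, 0 < r → r ≤ r₀ →
      hinf m (nu V x₁ R) x r ≤ A * r ^ β ∧ ratio m (nu V x₁ R) x r - cg m * Q ≤ A * r ^ β

/-- the singular points of density `Q` without power decay -/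
theorem dimH_powDec_density {m : ℕ} (hm : 1 ≤ m) {U : Set E} (hU : IsOpen U)
    {V : IntegralVarifold m U} (hst : V.IsStationary) (Q : ℕ) :
    dimH {x ∈ V.sing | V.theta x = Q ∧ ¬ PowDec V x} ≤ ((m - 1 : ℕ) : ℝ≥0∞) := by
  by_contra hcon
  rw [not_le] at hcon
  obtain ⟨x₁, hx₁, hxt⟩ := exists_mem_nhdsWithin_lt_dimH_of_lt_dimH hcon
  obtain ⟨R, hR0, hR⟩ : ∃ R > 0, closedBall x₁ R ⊆ U :=
    nhds_basis_closedBall.mem_iff.1 (hU.mem_nhds hx₁.1.1.1)
  have h1 := hxt ({x ∈ V.sing | V.theta x = Q ∧ ¬ PowDec V x} ∩ ball x₁ (R / 8))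
    (inter_mem self_mem_nhdsWithin (mem_nhdsWithin_of_mem_nhds (ball_mem_nhds _ (by positivity))))
  refine absurd h1 (not_lt.2 ?_)
  have hcg := cg_pos m
  have hfin := V.finite_restrict hR
  have hls := V.locStat hst hR
  refine dimH_le_freq _ (m - 1) fun rho h0 h16 eta heta => ?_
  obtain ⟨N₀, hN₀⟩ := exists_pow_lt_of_lt_one (show (0:ℝ) < 1 / 256 by norm_num) h16
  set N := N₀ + 1 with hN
  have hN256 : (6 * rho) ^ N ≤ 1 / 256 := by
    rw [hN, pow_succ]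
    have : 0 < (6 * rho) ^ N₀ := by positivity
    nlinarith
  obtain ⟨c, hc, hflat⟩ := flatGood_badK (E := E) hm Q h0 h16 (N := N) (by linarith)
  obtain ⟨δ₁, hδ₁, hdec⟩ := decay_of_many_bad (E := E) m Q h0 h16 (N := N) (by omega) hN256 hc
  set δ := min δ₁ 1 with hδ
  have hδ0 : 0 < δ := lt_min hδ₁ one_pos
  set rr : ℕ → ℝ := fun j => R / (1024 * ((j:ℝ) + 1)) with hrr
  have hrr0 : ∀ j, 0 < rr j := fun j => by rw [hrr]; positivity
  have hrrR : ∀ j, 1024 * rr j ≤ R := fun j => by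
    rw [hrr]
    have : (0:ℝ) ≤ j := Nat.cast_nonneg j
    rw [← mul_div_assoc, mul_div_mul_left _ _ (by norm_num : (1024:ℝ) ≠ 0)]
    exact div_le_self hR0.le (by linarith)
  refine ⟨fun j => {x ∈ stratum V x₁ R Q δ (512 * rr j) | ¬ PowDec V x}, ?_, fun j =>
    ⟨rr j, hrr0 j, stratum V x₁ R Q δ (512 * rr j), badK V x₁ R rho (rr j) c N,
      hflat U V hU hst x₁ R hR δ (min_le_right _ _) (rr j) (hrr0 j) (hrrR j), ?_⟩⟩
  · rintro x ⟨⟨hxs, hxQ, hxn⟩, hxb⟩
    rw [mem_iUnion]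
    have hxO : x ∈ ball x₁ R := ball_subset_ball (by linarith) hxb
    have h2 := hls.tendsto_ratio hxO
    rw [V.theta_restrict hxO, hxQ] at h2
    have h3 := h2.eventually (gt_mem_nhds (show cg m * (Q:ℝ) < cg m * Q + δ by linarith))
    obtain ⟨s, hs0, hs⟩ := (mem_nhdsGT_iff_exists_Ioo_subset).1 h3
    have hs0' : 0 < s := hs0
    obtain ⟨j, hj⟩ := exists_nat_gt (R / s)
    refine ⟨j, ⟨hxs, hxb, hxQ, fun r hr hrj => ?_⟩, hxn⟩
    have h4 : r < s := by
      refine hrj.trans_lt ?_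
      rw [hrr]
      rw [div_lt_iff₀ hs0'] at hj
      have h5 : 512 * (R / (1024 * ((j:ℝ) + 1))) = R / (2 * ((j:ℝ) + 1)) := by
        field_simp; norm_num
      simp only
      rw [h5, div_lt_iff₀ (by positivity)]
      nlinarith
    exact (hs ⟨hr, h4⟩).le
  · rintro x ⟨hx, hxn⟩
    by_contra hcon
    obtain ⟨A, β, hA, hβ, hd⟩ := hdec U V hU hst x₁ R hR δ (min_le_left _ _) (rr j) (hrr0 j)
      (hrrR j) x hx eta heta hcon
    have hr := hrr0 j
    exact hxn ⟨x₁, R, 64 * rr j, Q, A, β, hR, by positivity,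
      (closedBall_subset_closedBall (by linarith)).trans (stratum_ball hr (hrrR j) hx),
      hx.2.2.1, hA, hβ, hd⟩

/-- **Power decay off a set of dimension at most `m - 1`.** -/
theorem dimH_not_powDec {m : ℕ} (hm : 1 ≤ m) {U : Set E} (hU : IsOpen U)
    {V : IntegralVarifold m U} (hst : V.IsStationary) :
    dimH {x ∈ V.sing | ¬ PowDec V x} ≤ ((m - 1 : ℕ) : ℝ≥0∞) := by
  have hcov : {x ∈ V.sing | ¬ PowDec V x} ⊆
      {x ∈ V.sing | ∀ T, V.IsBlowupPlane x T → V.IsolatedAt x T} ∪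
      ⋃ Q : ℕ, {x ∈ V.sing | V.theta x = Q ∧ ¬ PowDec V x} := by
    rintro x ⟨hx, hxn⟩
    by_cases h : ∃ T, V.IsBlowupPlane x T
    · obtain ⟨T, hT⟩ := h
      obtain ⟨Q, hQ⟩ := theta_nat hU hst hx.1 hT
      exact Or.inr (mem_iUnion.2 ⟨Q, hx, hQ, hxn⟩)
    · push Not at h
      exact Or.inl ⟨hx, fun T hT => absurd hT (h T)⟩
  refine (dimH_mono hcov).trans ?_
  rw [dimH_union, dimH_iUnion]
  exact max_le (V.dimH_sing hm hU hst) (iSup_le fun Q => dimH_powDec_density hm hU hst Q)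

end Vale.Agent.P214.DIM
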