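import Vale.Agent.P214.DIM.Cover
import Mathlib.Data.Nat.Count

/-!
# P214, block DIM: counting exceptional levels along flat intervals (pure combinatorics)
-/

open Set

set_option linter.all false

namespace Vale.Agent.P214.DIM

open Classical in
/-- number of levels `i < k` with `p i` -/
noncomputable def cn (p : ℕ → Prop) (k : ℕ) : ℝ := (Nat.count p k : ℝ)

open Classical in
lemma cn_eq (p : ℕ → Prop) (k : ℕ) : (({i | i < k ∧ p i} : Set ℕ).ncard : ℝ) = cn p k := by
  unfold cn
  rw [Nat.count_eq_card_filter_range]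
  congr 1
  rw [← Set.ncard_coe_finset]
  congr 1
  ext i
  simp

lemma cn_zero (p : ℕ → Prop) : cn p 0 = 0 := by simp [cn]

lemma cn_nonneg (p : ℕ → Prop) (k : ℕ) : 0 ≤ cn p k := by unfold cn; positivity

open Classical in
lemma cn_succ_of_not {p : ℕ → Prop} {k : ℕ} (h : ¬ p k) : cn p (k + 1) = cn p k := by
  unfold cn
  rw [Nat.count_succ, if_neg h, add_zero]

open Classical in
lemma cn_eq_of_forall_not {p : ℕ → Prop} {a b : ℕ} (hab : a ≤ b)
    (h : ∀ i, a ≤ i → i < b → ¬ p i) : cn p b = cn p a := by
  induction b, hab using Nat.le_induction with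
  | base => rfl
  | succ b hab ih =>
    rw [cn_succ_of_not (h b hab (by omega)), ih fun i h1 h2 => h i h1 (by omega)]

lemma cn_mono {p q : ℕ → Prop} (h : ∀ i, p i → q i) (k : ℕ) : cn p k ≤ cn q k := by
  classical
  unfold cn
  exact_mod_cast Nat.count_mono_left (fun i _ => h i)

open Classical in
lemma cn_sub_mono {p q : ℕ → Prop} (h : ∀ i, p i → q i) {a b : ℕ} (hab : a ≤ b) :
    cn p b - cn p a ≤ cn q b - cn q a := by
  induction b, hab using Nat.le_induction with
  | base => simp
  | succ b hab ih =>
    have e1 : cn p (b + 1) = cn p b + (if p b then 1 else 0) := by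
      unfold cn; rw [Nat.count_succ]; push_cast; rfl
    have e2 : cn q (b + 1) = cn q b + (if q b then 1 else 0) := by
      unfold cn; rw [Nat.count_succ]; push_cast; rfl
    have h3 : (if p b then (1:ℝ) else 0) ≤ (if q b then 1 else 0) := by
      split_ifs with h1 h2
      · exact le_rfl
      · exact absurd (h b h1) h2
      · norm_num
      · exact le_rfl
    linarith

/-- **Counting lemma.** `flat` : flat levels; `bad` : exceptional levels (inside long flat
intervals). -/
theorem count_bad {flat bad : ℕ → Prop} {K0 : ℕ} {C1 C2 eta : ℝ} (hC1 : 0 ≤ C1) (hC2 : 0 ≤ C2)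
    (heta : 0 ≤ eta) (hK : C1 ≤ eta * K0)
    (ha : ∀ i, bad i → ∀ j, i ≤ j → j ≤ i + K0 → flat j)
    (hb : ∀ a b, a + 1 ≤ b → ¬ flat a → (∀ j, a + 1 ≤ j → j < b → flat j) →
      cn bad b - cn bad (a + 1) ≤ C1 + eta * (b - (a + 1 : ℕ)))
    (hc : ∀ b, (∀ j, j < b → flat j) → cn bad b ≤ C2 + eta * b) (k : ℕ) :
    cn bad k ≤ 2 * eta * k + (C1 + C2) := by
  classical
  have hnb : ∀ i, ¬ flat i → ¬ bad i := fun i h1 h2 => h1 (ha i h2 i le_rfl (by omega))
  -- the last non-flat level
  have hlast : ∀ k, (∀ j, j < k → flat j) ∨ ∃ a, a < k ∧ ¬ flat a ∧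
      ∀ j, a + 1 ≤ j → j < k → flat j := by
    intro k
    induction k with
    | zero => left; intro j hj; omega
    | succ k ih =>
      by_cases hk : flat k
      · rcases ih with ih | ⟨a, h1, h2, h3⟩
        · left; intro j hj
          rcases Nat.lt_succ_iff_lt_or_eq.1 hj with h | h
          · exact ih j h
          · rw [h]; exact hk
        · right
          refine ⟨a, by omega, h2, fun j h4 h5 => ?_⟩
          rcases Nat.lt_succ_iff_lt_or_eq.1 h5 with h | h
          · exact h3 j h4 h
          · rw [h]; exact hk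
      · right
        exact ⟨k, by omega, hk, fun j h4 h5 => by omega⟩
  -- non-flat levels
  have key : ∀ k, ¬ flat k → cn bad k ≤ 2 * eta * k + C2 := by
    intro k
    induction k using Nat.strong_induction_on with
    | _ k ih =>
      intro hk
      rcases hlast k with h0 | ⟨a, h1, h2, h3⟩
      · have := hc k h0
        have h4 : 0 ≤ eta * k := by positivity
        linarith
      · have ih1 := ih a h1 h2
        have e1 : cn bad (a + 1) = cn bad a := cn_succ_of_not (hnb a h2)
        rcases le_or_gt k (a + 1 + K0) with hle | hgt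
        · have e2 : cn bad k = cn bad (a + 1) := by
            refine cn_eq_of_forall_not h1 fun i h4 h5 h6 => ?_
            exact hk (ha i h6 k h5.le (by omega))
          rw [e2, e1]
          have h7 : (a:ℝ) ≤ k := by exact_mod_cast h1.le
          have h8 : 2 * eta * a ≤ 2 * eta * k := by gcongr
          linarith
        · have h4 := hb a k h1 h2 h3
          have h5 : (K0 : ℝ) ≤ (k:ℝ) - (a + 1 : ℕ) := by
            have : K0 + (a + 1) ≤ k := by omega
            have : (K0 : ℝ) + ((a + 1 : ℕ) : ℝ) ≤ (k:ℝ) := by exact_mod_cast this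
            linarith
          have h6 : eta * K0 ≤ eta * ((k:ℝ) - (a + 1 : ℕ)) := by gcongr
          have h7 : (a:ℝ) ≤ (a + 1 : ℕ) := by push_cast; linarith
          have h8 : 2 * eta * a ≤ 2 * eta * (a + 1 : ℕ) := by gcongr
          nlinarith
  rcases hlast k with h0 | ⟨a, h1, h2, h3⟩
  · have := hc k h0
    have h4 : 0 ≤ eta * k := by positivity
    linarith
  · have ih1 := key a h2
    have e1 : cn bad (a + 1) = cn bad a := cn_succ_of_not (hnb a h2)
    have h4 := hb a k h1 h2 h3
    have h7 : (a:ℝ) ≤ (a + 1 : ℕ) := by push_cast; linarith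
    have h8 : 2 * eta * a ≤ 2 * eta * (a + 1 : ℕ) := by gcongr
    have h9 : 0 ≤ eta * ((k:ℝ) - (a + 1 : ℕ)) := by
      have : ((a + 1 : ℕ) : ℝ) ≤ (k:ℝ) := by exact_mod_cast h1
      have : 0 ≤ (k:ℝ) - (a + 1 : ℕ) := by linarith
      positivity
    nlinarith

end Vale.Agent.P214.DIM
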