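import Vale.Agent.P214.HS.Height
import Vale.Agent.P214.DIM.Cover

/-!
# P214, block DIM: non-flat scales

`NonFlat m ν ε x r` : every `m`-plane through `x` has normalised height at least `ε` at `(x, r)`.
At such a scale the pinched points near `x` lie near a plane of dimension at most `m - 1`
(`flatPt_of_nonFlat`).  Short flat intervals are non-flat with a quarter of the constant
(`nonFlat_up`).
-/

open Set Filter Topology MeasureTheory Metric
open scoped RealInnerProductSpace ENNReal NNReal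

set_option linter.all false

namespace Vale.Agent.P214.DIM

open Vale.Agent.P214.HS

variable {E : Type*} [NormedAddCommGroup E] [InnerProductSpace ℝ E] [FiniteDimensional ℝ E]
  [MeasurableSpace E] [BorelSpace E]

variable {x y : E} {r : ℝ} {m : ℕ} {O : Set E} {ν : Measure E} {P : E → E →L[ℝ] E}

/-- every `m`-plane has height at least `ε` -/
def NonFlat (m : ℕ) (ν : Measure E) (ε : ℝ) (x : E) (r : ℝ) : Prop :=
  ∀ T : Submodule ℝ E, Module.finrank ℝ T = m → ε ≤ height m ν T x r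

lemma NonFlat.mono {ε ε' : ℝ} (h : NonFlat m ν ε x r) (hε : ε' ≤ ε) : NonFlat m ν ε' x r :=
  fun T hT => hε.trans (h T hT)

lemma exists_flat {ε : ℝ} (h : ¬ NonFlat m ν ε x r) :
    ∃ T : Submodule ℝ E, Module.finrank ℝ T = m ∧ height m ν T x r < ε := by
  unfold NonFlat at h
  push Not at h
  exact h

lemma hsq_le_tilt (T : Submodule ℝ E) (A : E →L[ℝ] E) (x y : E) :
    hsq T x y ≤ 2 * ‖(y - x) - A (y - x)‖ ^ 2 + 2 * (‖A - T.starProjection‖ ^ 2 * ‖y - x‖ ^ 2) := by
  unfold hsq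
  have e : Tᗮ.starProjection (y - x) = ((y - x) - A (y - x)) + (A - T.starProjection) (y - x) := by
    rw [T.starProjection_orthogonal']
    simp
  rw [e]
  set a := (y - x) - A (y - x)
  set b := (A - T.starProjection) (y - x) with hb
  have h1 : ‖b‖ ≤ ‖A - T.starProjection‖ * ‖y - x‖ := ContinuousLinearMap.le_opNorm _ _
  have h2 : ‖b‖ ^ 2 ≤ ‖A - T.starProjection‖ ^ 2 * ‖y - x‖ ^ 2 := by
    rw [← mul_pow]; exact pow_le_pow_left₀ (norm_nonneg _) h1 2
  have h3 : ‖a + b‖ ≤ ‖a‖ + ‖b‖ := norm_add_le _ _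
  have h4 : ‖a + b‖ ^ 2 ≤ (‖a‖ + ‖b‖) ^ 2 := pow_le_pow_left₀ (norm_nonneg _) h3 2
  nlinarith [sq_nonneg (‖a‖ - ‖b‖)]

/-- the height over `T` is controlled by the conical deficit and the tilt -/
lemma height_le_tilt [IsFiniteMeasure ν] (h : LocStat m O ν P) (hr : 0 < r)
    (hball : closedBall x (4 * r) ⊆ O) (T : Submodule ℝ E) :
    height m ν T x r ≤ 2 * 4 ^ (m + 2) * (ratio m ν x (4 * r) - ratio m ν x (2 * r))
      + 2 * (∫ z in ball x r, ‖P z - T.starProjection‖ ^ 2 ∂ν) / r ^ m := by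
  have e1 : 2 * (2 * r) = 4 * r := by ring
  have e2 : 2 * r / 2 = r := by ring
  have e3 : (4 * r) ^ (m + 3) / (4 * r) = (4 * r) ^ (m + 2) := by
    rw [pow_succ (4 * r) (m + 2)]; field_simp
  have hD := h.deficit (x := x) (r := 2 * r) (by linarith) (by rw [e1]; exact hball)
  rw [e1, e2, e3] at hD
  set δ := ratio m ν x (4 * r) - ratio m ν x (2 * r) with hδ
  have hI1 := h.integrableOn_tilt x x r
  have hI2 := h.integrableOn_tiltsq T.starProjection (ball x r)
  have hI1' : IntegrableOn (fun y => ‖(y - x) - P y (y - x)‖ ^ 2) (ball x r) ν :=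
    hI1.mono_set ball_subset_closedBall
  have hw : wmass ν x (hsq T x) r ≤ ∫ y in ball x r,
      (2 * ‖(y - x) - P y (y - x)‖ ^ 2 + 2 * r ^ 2 * ‖P y - T.starProjection‖ ^ 2) ∂ν := by
    unfold wmass
    have hz : ∫ y, cut x r y * hsq T x y ∂ν = ∫ y in ball x r, cut x r y * hsq T x y ∂ν := by
      rw [setIntegral_eq_integral_of_forall_compl_eq_zero]
      intro y hy
      rw [mem_ball, not_lt, dist_eq_norm] at hy
      rw [cut_eq_zero hr hy, zero_mul]
    rw [hz]
    refine setIntegral_mono_on ((integrable_cut_hsq hr x).integrableOn)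
      ((hI1'.const_mul 2).add (hI2.const_mul _)) measurableSet_ball fun y hy => ?_
    have h1 := hsq_le_tilt T (P y) x y
    have h2 := hsq_nonneg T x y
    have h3 := cut_le_one x r y
    have h4 := cut_nonneg x r y
    rw [mem_ball, dist_eq_norm] at hy
    have h5 : ‖y - x‖ ^ 2 ≤ r ^ 2 := pow_le_pow_left₀ (norm_nonneg _) hy.le 2
    have h6 : ‖P y - T.starProjection‖ ^ 2 * ‖y - x‖ ^ 2 ≤ ‖P y - T.starProjection‖ ^ 2 * r ^ 2 := by
      gcongr
    have h7 : cut x r y * hsq T x y ≤ 1 * hsq T x y := by gcongr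
    linarith
  rw [integral_add (hI1'.const_mul 2) (hI2.const_mul _), integral_const_mul,
    integral_const_mul] at hw
  have h1 : ∫ z in ball x r, ‖(z - x) - P z (z - x)‖ ^ 2 ∂ν
      ≤ ∫ z in closedBall x r, ‖(z - x) - P z (z - x)‖ ^ 2 ∂ν :=
    setIntegral_mono_set hI1 (Eventually.of_forall fun z => by simp only [Pi.zero_apply]; positivity)
      (Eventually.of_forall ball_subset_closedBall)
  have h2 : wmass ν x (hsq T x) r ≤ 2 * ((4 * r) ^ (m + 2) * δ)
      + 2 * r ^ 2 * ∫ z in ball x r, ‖P z - T.starProjection‖ ^ 2 ∂ν := by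
    linarith
  unfold height
  have hrm : (0:ℝ) < r ^ (m + 2) := by positivity
  rw [div_le_iff₀ hrm]
  refine h2.trans (le_of_eq ?_)
  have e4 : r ^ (m + 2) = r ^ m * r ^ 2 := pow_add _ _ _
  rw [mul_pow (4:ℝ) r (m + 2), e4]
  field_simp

/-- at a non-flat scale with small deficit the tangent planes are spread -/
lemma spread_of_nonFlat [IsFiniteMeasure ν] (h : LocStat m O ν P) (hr : 0 < r)
    (hball : closedBall x (4 * r) ⊆ O) {ε η : ℝ} (hε : NonFlat m ν ε x r)
    (hη : ratio m ν x (4 * r) - ratio m ν x (2 * r) ≤ η) (hsmall : 2 * 4 ^ (m + 2) * η ≤ ε / 2) :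
    Spread m ν P (ε / 4) x r := by
  intro T hT
  have h1 := height_le_tilt h hr hball T
  have h2 := hε T hT
  have hrm : (0:ℝ) < r ^ m := by positivity
  have h3 : 2 * 4 ^ (m + 2) * (ratio m ν x (4 * r) - ratio m ν x (2 * r)) ≤ ε / 2 := by
    refine le_trans ?_ hsmall
    gcongr
  have h4 : ε / 2 ≤ 2 * (∫ z in ball x r, ‖P z - T.starProjection‖ ^ 2 ∂ν) / r ^ m := by linarith
  rw [le_div_iff₀ hrm] at h4
  linarith

/-- the smallness needed at non-flat scales -/
noncomputable def etaNF (m : ℕ) (ε rho : ℝ) : ℝ :=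
  min (ε / (4 * 4 ^ (m + 2))) (rho ^ 2 * (ε / 4 / (4 * m)) / (4 * 8 ^ (m + 2)))

lemma etaNF_pos (hm : 1 ≤ m) {ε rho : ℝ} (hε : 0 < ε) (hrho : 0 < rho) : 0 < etaNF m ε rho := by
  have hmR : (0:ℝ) < m := by exact_mod_cast hm
  unfold etaNF
  exact lt_min (by positivity) (by positivity)

/-- **Non-flat scales.** -/
theorem flatPt_of_nonFlat [IsFiniteMeasure ν] (h : LocStat m O ν P) (hm : 1 ≤ m)
    (hr : 0 < r) {ε rho : ℝ} (hε0 : 0 < ε) (hrho : 0 < rho) {A : Set E}
    (hball : ∀ y ∈ insert x A, dist y x ≤ r → closedBall y (8 * r) ⊆ O)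
    (hε : NonFlat m ν ε x r)
    (hA : ∀ y ∈ insert x A, dist y x ≤ r →
      ratio m ν y (8 * r) - ratio m ν y (2 * r) ≤ etaNF m ε rho) :
    FlatPt (m - 1) rho r A x := by
  have hmR : (0:ℝ) < m := by exact_mod_cast hm
  set η := etaNF m ε rho with hη
  have hη0 : 0 < η := etaNF_pos hm hε0 hrho
  have hη1 : η ≤ ε / (4 * 4 ^ (m + 2)) := min_le_left _ _
  have hη2 : η ≤ rho ^ 2 * (ε / 4 / (4 * m)) / (4 * 8 ^ (m + 2)) := min_le_right _ _
  have hxx : dist x x ≤ r := by rw [dist_self]; exact hr.le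
  have hbx := hball x (mem_insert _ _) hxx
  have hmono : ∀ y ∈ insert x A, dist y x ≤ r → ∀ s, 2 * r ≤ s → s ≤ 8 * r →
      ratio m ν y (2 * r) ≤ ratio m ν y s ∧ ratio m ν y s ≤ ratio m ν y (8 * r) := by
    intro y hy hyx s hs1 hs2
    exact ⟨h.ratio_mono (by linarith) hs1 ((closedBall_subset_closedBall hs2).trans (hball y hy hyx)),
      h.ratio_mono (by linarith) hs2 (hball y hy hyx)⟩
  have hsp : Spread m ν P (ε / 4) x r := by
    refine spread_of_nonFlat (η := η) h hr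
      ((closedBall_subset_closedBall (by linarith)).trans hbx) hε ?_ ?_
    · have h1 := hA x (mem_insert _ _) hxx
      have h2 := (hmono x (mem_insert _ _) hxx (4 * r) (by linarith) (by linarith)).2
      linarith
    · have h3 : 2 * 4 ^ (m + 2) * η ≤ 2 * 4 ^ (m + 2) * (ε / (4 * 4 ^ (m + 2))) := by gcongr
      refine h3.trans (le_of_eq ?_)
      field_simp
      norm_num
  obtain ⟨L, hL, hLw⟩ := h.flat_of_spread hm hr (by positivity : 0 < ε / 4) hsp
  refine ⟨L, hL, fun y hy hyx => ?_⟩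
  have hyi : y ∈ insert x A := mem_insert_of_mem _ hy
  have hd : ∀ y' ∈ insert x A, dist y' x ≤ r →
      ratio m ν y' (8 * r) - ratio m ν y' (4 * r) ≤ η := by
    intro y' hy' hyx'
    have h1 := hA y' hy' hyx'
    have h2 := (hmono y' hy' hyx' (4 * r) (by linarith) (by linarith)).1
    linarith
  have h1 := (hLw (y - x)).trans (h.form_le hr hbx (hball y hyi hyx)
    (hd x (mem_insert _ _) hxx) (hd y hyi hyx) hyx)
  set d := ‖(y - x) - L.starProjection (y - x)‖ with hd'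
  have h2 : ε / 4 / (4 * m) * r ^ m * d ^ 2 ≤ ε / 4 / (4 * m) * r ^ m * (rho * r) ^ 2 := by
    refine h1.trans ?_
    have h5 : 4 * ((8 * r) ^ (m + 2) * η)
        ≤ 4 * ((8 * r) ^ (m + 2) * (rho ^ 2 * (ε / 4 / (4 * m)) / (4 * 8 ^ (m + 2)))) := by
      gcongr
    refine h5.trans (le_of_eq ?_)
    rw [mul_pow (8:ℝ) r, pow_add r m 2, mul_pow]
    field_simp
  have h3 : 0 < ε / 4 / (4 * m) * r ^ m := by positivity
  have h4 : d ^ 2 ≤ (rho * r) ^ 2 := le_of_mul_le_mul_left h2 h3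
  exact (pow_le_pow_iff_left₀ (norm_nonneg _) (by positivity) two_ne_zero).1 h4

/-- **Short flat intervals**: non-flatness passes to larger scales. -/
theorem nonFlat_up [IsFiniteMeasure ν] (h : LocStat m O ν P) {r₁ r₂ : ℝ} (h1 : 0 < r₁)
    (h12 : r₁ ≤ r₂) (hball : closedBall x r₂ ⊆ O) {ε : ℝ} (hε0 : 0 < ε)
    (hε : NonFlat m ν ε x r₁)
    (hd : Real.log (r₂ / r₁) * (ratio m ν x r₂ - ratio m ν x r₁) ≤ ε) :
    NonFlat m ν (ε / 4) x r₂ := by
  intro T hT
  have h2 := sqrt_height_le (T := T) h h1 h12 hball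
  have h3 := hε T hT
  have h4 : √ε ≤ √(height m ν T x r₁) := Real.sqrt_le_sqrt h3
  have h5 : √(Real.log (r₂ / r₁) * (ratio m ν x r₂ - ratio m ν x r₁)) ≤ √ε := Real.sqrt_le_sqrt hd
  have h6 : √ε / 2 ≤ √(height m ν T x r₂) := by linarith
  have h7 : 0 ≤ height m ν T x r₂ := height_nonneg (h1.trans_le h12)
  have h8 : (√ε / 2) ^ 2 ≤ √(height m ν T x r₂) ^ 2 :=
    pow_le_pow_left₀ (by positivity) h6 2
  rw [Real.sq_sqrt h7, div_pow, Real.sq_sqrt hε0.le] at h8
  linarith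

end Vale.Agent.P214.DIM
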