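import Vale.Agent.P214.HS.MeanValue
import Vale.Agent.P214.MU.VTheta
import Vale.Agent.P214.DIM.Split
import Vale.Agent.P214.DIM.Count

/-!
# P214, block DIM: assembly

`FreqProp V Q` collects what the frequency function has to provide along flat intervals at the
singular points of density `Q`; `dimH_density` : then the singular points of density `Q` form a set
of dimension at most `m - 1`.
-/

open Set Filter Topology MeasureTheory Metric
open scoped RealInnerProductSpace ENNReal NNReal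

set_option linter.all false

namespace Vale.Agent.P214.DIM

open Vale.Agent.P214.HS

variable {E : Type*} [NormedAddCommGroup E] [InnerProductSpace ℝ E] [FiniteDimensional ℝ E]
  [MeasurableSpace E] [BorelSpace E]

section centre

variable {x y : E} {r : ℝ} {m : ℕ} {O : Set E} {ν : Measure E} {P : E → E →L[ℝ] E}

/-- mass of a half ball in terms of the smoothed ratio -/
lemma mass_half_le [IsFiniteMeasure ν] (hr : 0 < r) :
    ν.real (closedBall x (r / 2)) ≤ 16 / 9 * (r ^ m * ratio m ν x r) := by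
  have hint : Integrable (fun y => cut x r y) ν :=
    integrable_of_ball (x := x) (continuous_cut x r) hr fun y hy => cut_eq_zero hr hy
  have h1 : ∫ _y in closedBall x (r / 2), (9 / 16 : ℝ) ∂ν
      ≤ ∫ y in closedBall x (r / 2), cut x r y ∂ν := by
    refine setIntegral_mono_on (integrable_const _) hint.integrableOn measurableSet_closedBall
      fun y hy => ?_
    rw [mem_closedBall, dist_eq_norm] at hy
    exact cut_ge hr hy
  have h2 : ∫ y in closedBall x (r / 2), cut x r y ∂ν ≤ ∫ y, cut x r y ∂ν :=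
    setIntegral_le_integral hint (Eventually.of_forall fun y => cut_nonneg x r y)
  rw [setIntegral_const, smul_eq_mul] at h1
  have h3 : r ^ m * ratio m ν x r = ∫ y, cut x r y ∂ν := by
    unfold ratio; field_simp
  rw [h3]
  linarith

/-- change of centre for the height -/
lemma height_center [IsFiniteMeasure ν] (h : LocStat m O ν P) {T : Submodule ℝ E} {a M : ℝ}
    (ha : 0 < a) (hd : DensLow m O ν a) (hr : 0 < r) (hball : closedBall x r ⊆ O)
    (hy : y ∈ ν.support) (hyx : ‖y - x‖ ≤ r / 4) (hM : ratio m ν x r ≤ M) :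
    height m ν T y (r / 4) ≤ 4 ^ (m + 3) * (1 + 2 * 4 ^ m * M / a) * height m ν T x r := by
  set Hx := height m ν T x r with hHx
  have hHx0 : 0 ≤ Hx := height_nonneg hr
  have hM0 : 0 ≤ M := (ratio_nonneg hr).trans hM
  have h1 := hsq_le_height (T := T) h hd hr hball hy hyx
  have h1' : hsq T x y ≤ 2 * 4 ^ m * r ^ 2 * Hx / a := by
    rw [le_div_iff₀ ha]; linarith
  have hsub : ball y (r / 4) ⊆ closedBall x (r / 2) := by
    refine ball_subset_closedBall.trans (closedBall_subset_closedBall' ?_)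
    rw [dist_eq_norm]; linarith
  have hw : wmass ν y (hsq T y) (r / 4) ≤ 4 * wmass ν x (hsq T x) r
      + 2 * hsq T x y * ν.real (closedBall x (r / 2)) := by
    have hi1 : Integrable (fun z => cut y (r / 4) z * hsq T y z) ν :=
      integrable_cut_hsq (by positivity) y
    have hi2 : Integrable (fun z => 4 * (cut x r z * hsq T x z)) ν :=
      (integrable_cut_hsq hr x).const_mul 4
    have hi3 : Integrable ((closedBall x (r / 2)).indicator fun _ => 2 * hsq T x y) ν :=
      (integrable_const _).indicator measurableSet_closedBall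
    have e3 : ∫ z, (closedBall x (r / 2)).indicator (fun _ => 2 * hsq T x y) z ∂ν
        = 2 * hsq T x y * ν.real (closedBall x (r / 2)) := by
      rw [integral_indicator measurableSet_closedBall, setIntegral_const, smul_eq_mul, mul_comm]
    unfold wmass
    rw [← e3, ← integral_const_mul, ← integral_add hi2 hi3]
    refine integral_mono hi1 (hi2.add hi3) fun z => ?_
    simp only
    by_cases hz : r / 4 ≤ ‖z - y‖
    · rw [cut_eq_zero (by positivity) hz, zero_mul]
      have h3 : 0 ≤ cut x r z := cut_nonneg x r z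
      have h4 := hsq_nonneg T x z
      have h5 : 0 ≤ (closedBall x (r / 2)).indicator (fun _ => 2 * hsq T x y) z :=
        indicator_nonneg (fun _ _ => by have := hsq_nonneg T x y; linarith) z
      have : 0 ≤ 4 * (cut x r z * hsq T x z) := by positivity
      linarith
    · have hzb : z ∈ closedBall x (r / 2) := hsub (by
        rw [mem_ball, dist_eq_norm]; exact not_le.1 hz)
      rw [indicator_of_mem hzb]
      rw [mem_closedBall, dist_eq_norm] at hzb
      have h6 := cut_ge (x := x) (y := z) hr hzb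
      have h7 := cut_le_one y (r / 4) z
      have h8 := cut_nonneg y (r / 4) z
      have h9 := hsq_nonneg T x z
      have h10 := hsq_nonneg T y z
      have h11 : hsq T y z ≤ 2 * hsq T x z + 2 * hsq T x y := by
        unfold hsq
        have e : Tᗮ.starProjection (z - y) = Tᗮ.starProjection (z - x) - Tᗮ.starProjection (y - x) := by
          rw [← map_sub]; congr 1; abel
        rw [e]
        set u := Tᗮ.starProjection (z - x)
        set v := Tᗮ.starProjection (y - x)
        have h3 : ‖u - v‖ ≤ ‖u‖ + ‖v‖ := norm_sub_le _ _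
        have h4 : ‖u - v‖ ^ 2 ≤ (‖u‖ + ‖v‖) ^ 2 := pow_le_pow_left₀ (norm_nonneg _) h3 2
        nlinarith [sq_nonneg (‖u‖ - ‖v‖)]
      have h12 : cut y (r / 4) z * hsq T y z ≤ 1 * hsq T y z := by gcongr
      have h13 : 9 / 16 * hsq T x z ≤ cut x r z * hsq T x z := by gcongr
      nlinarith
  have hmass := mass_half_le (m := m) (ν := ν) (x := x) hr
  have hmass' : ν.real (closedBall x (r / 2)) ≤ 2 * (r ^ m * M) := by
    have : r ^ m * ratio m ν x r ≤ r ^ m * M := by gcongr
    have h0 : 0 ≤ r ^ m * M := by positivity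
    linarith
  have hwx : wmass ν x (hsq T x) r = Hx * r ^ (m + 2) := by
    rw [hHx]; unfold height; field_simp
  have hfin : wmass ν y (hsq T y) (r / 4) ≤ 4 * (Hx * r ^ (m + 2))
      + 2 * (2 * 4 ^ m * r ^ 2 * Hx / a) * (2 * (r ^ m * M)) := by
    refine hw.trans ?_
    rw [hwx]
    have := hsq_nonneg T x y
    gcongr
  unfold height
  rw [div_le_iff₀ (by positivity)]
  refine hfin.trans (le_of_eq ?_)
  have e1 : r ^ (m + 2) = r ^ m * r ^ 2 := pow_add _ _ _
  have e2 : (4:ℝ) ^ (m + 2) = 4 ^ m * 4 ^ 2 := pow_add _ _ _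
  have e3 : (4:ℝ) ^ (m + 3) = 4 ^ m * 4 ^ 3 := pow_add _ _ _
  rw [div_pow, e1, e2, e3]
  field_simp
  ring

end centre

variable {m : ℕ} {U : Set E}

/-- local restriction of the weight -/
noncomputable def nu (V : IntegralVarifold m U) (x₁ : E) (R : ℝ) : Measure E :=
  V.weight.restrict (closedBall x₁ R)

/-- singular points near `x₁` of density `Q` with mass ratio pinched below the radius `r₀` -/
def stratum (V : IntegralVarifold m U) (x₁ : E) (R : ℝ) (Q : ℕ) (δ r₀ : ℝ) : Set E :=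
  {x | x ∈ V.sing ∧ x ∈ ball x₁ (R / 8) ∧ V.theta x = Q ∧
    ∀ r, 0 < r → r ≤ r₀ → ratio m (nu V x₁ R) x r ≤ cg m * Q + δ}

/-- what the frequency function provides at singular points of density `Q`: exceptional levels
`bad x i` such that every flat interval contains at most `C₁ + eta * length` of them, and
such that at flat non-exceptional levels the non-exceptional points of the stratum are near
an `(m-1)`-plane. -/
def FreqProp (V : IntegralVarifold m U) (Q : ℕ) : Prop :=
  ∀ rho : ℝ, 0 < rho → 6 * rho < 1 → ∀ eta : ℝ, 0 < eta →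
    ∃ ε₀ > 0, ∃ ε₂ > 0, ∃ δ > 0, ∃ C₁ : ℝ, ∀ (x₁ : E) (R : ℝ), closedBall x₁ R ⊆ U →
      ∀ r₀ : ℝ, 0 < r₀ → 1024 * r₀ ≤ R → ∃ (bad : E → ℕ → Prop) (C₂ : E → ℝ),
        (∀ x ∈ stratum V x₁ R Q δ (512 * r₀), ∀ a b, a + 1 ≤ b →
          NonFlat m (nu V x₁ R) ε₀ x (16 * lev rho r₀ a) →
          (∀ j, a + 1 ≤ j → j < b → ¬ NonFlat m (nu V x₁ R) ε₀ x (16 * lev rho r₀ j)) →
          cn (bad x) b - cn (bad x) (a + 1) ≤ C₁ + eta * (b - (a + 1 : ℕ))) ∧
        (∀ x ∈ stratum V x₁ R Q δ (512 * r₀), ∀ b,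
          (∀ j, j < b → ¬ NonFlat m (nu V x₁ R) ε₀ x (16 * lev rho r₀ j)) →
          cn (bad x) b ≤ C₂ x + eta * b) ∧
        (∀ x ∈ stratum V x₁ R Q δ (512 * r₀), ∀ i,
          ¬ NonFlat m (nu V x₁ R) ε₂ x (64 * lev rho r₀ i) → ¬ bad x i →
          FlatPt (m - 1) rho (2 * lev rho r₀ i)
            {y ∈ stratum V x₁ R Q δ (512 * r₀) | ¬ bad y i} x)

lemma stratum_mono {V : IntegralVarifold m U} {x₁ : E} {R : ℝ} {Q : ℕ} {δ δ' r₀ : ℝ}
    (h : δ ≤ δ') : stratum V x₁ R Q δ r₀ ⊆ stratum V x₁ R Q δ' r₀ :=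
  fun x hx => ⟨hx.1, hx.2.1, hx.2.2.1, fun r h1 h2 => (hx.2.2.2 r h1 h2).trans (by linarith)⟩

lemma FlatPt.shrink {d : ℕ} {rho rho' r r' : ℝ} {A B : Set E} {x : E} (h : FlatPt d rho r A x)
    (hr : r' ≤ r) (he : rho * r ≤ rho' * r') (hBA : ∀ y ∈ B, dist y x ≤ r' → y ∈ A) :
    FlatPt d rho' r' B x := by
  obtain ⟨L, hL, hL2⟩ := h
  exact ⟨L, hL, fun y hy hyx => (hL2 y (hBA y hy hyx) (hyx.trans hr)).trans he⟩

lemma lev_le {rho r0 : ℝ} (h0 : 0 < rho) (h1 : 6 * rho < 1) (hr : 0 < r0) (i : ℕ) :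
    lev rho r0 i ≤ r0 := by
  unfold lev
  have : (6 * rho) ^ i ≤ 1 := pow_le_one₀ (by positivity) h1.le
  nlinarith

lemma lev_anti {rho r0 : ℝ} (h0 : 0 < rho) (h1 : 6 * rho < 1) (hr : 0 < r0) {i j : ℕ}
    (hij : i ≤ j) : lev rho r0 j ≤ lev rho r0 i := by
  unfold lev
  have : (6 * rho) ^ j ≤ (6 * rho) ^ i := pow_le_pow_of_le_one (by positivity) h1.le hij
  nlinarith

lemma log_lev {rho r0 c : ℝ} (h0 : 0 < rho) (hr : 0 < r0) (hc : 0 < c) {i j : ℕ} (hij : i ≤ j) :
    Real.log (c * lev rho r0 i / (c * lev rho r0 j)) = ((j:ℝ) - i) * (-Real.log (6 * rho)) := by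
  have h1 : c * lev rho r0 i / (c * lev rho r0 j) = ((6 * rho) ^ (j - i))⁻¹ := by
    unfold lev
    obtain ⟨k, rfl⟩ := Nat.exists_eq_add_of_le hij
    rw [Nat.add_sub_cancel_left, pow_add]
    have h6 : (6 * rho) ^ i ≠ 0 := by positivity
    have h7 : (6 * rho) ^ k ≠ 0 := by positivity
    field_simp
  rw [h1, Real.log_inv, Real.log_pow]
  rw [Nat.cast_sub hij]
  ring

/-- the flat-exceptional property of a stratum with bounded initial count -/
theorem flatExc_of_freq (hm : 1 ≤ m) {V : IntegralVarifold m U} (hst : V.IsStationary)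
    {Q : ℕ} {x₁ : E} {R : ℝ} (hR : closedBall x₁ R ⊆ U) {rho : ℝ} (h0 : 0 < rho)
    (h1 : 6 * rho < 1) {eta : ℝ} (heta : 0 < eta) {ε₀ ε₂ : ℝ} (hε₀ : 0 < ε₀) (hε₂ : 0 < ε₂)
    {δ C₁ : ℝ} (hδ : 0 < δ) :
    ∃ δ' > 0, δ' ≤ δ ∧ ∀ r₀ : ℝ, 0 < r₀ → 1024 * r₀ ≤ R →
      ∀ (bad : E → ℕ → Prop) (C₂ : E → ℝ),
        (∀ x ∈ stratum V x₁ R Q δ (512 * r₀), ∀ a b, a + 1 ≤ b →
          NonFlat m (nu V x₁ R) ε₀ x (16 * lev rho r₀ a) →
          (∀ j, a + 1 ≤ j → j < b → ¬ NonFlat m (nu V x₁ R) ε₀ x (16 * lev rho r₀ j)) →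
          cn (bad x) b - cn (bad x) (a + 1) ≤ C₁ + eta * (b - (a + 1 : ℕ))) →
        (∀ x ∈ stratum V x₁ R Q δ (512 * r₀), ∀ b,
          (∀ j, j < b → ¬ NonFlat m (nu V x₁ R) ε₀ x (16 * lev rho r₀ j)) →
          cn (bad x) b ≤ C₂ x + eta * b) →
        (∀ x ∈ stratum V x₁ R Q δ (512 * r₀), ∀ i,
          ¬ NonFlat m (nu V x₁ R) ε₂ x (64 * lev rho r₀ i) → ¬ bad x i →
          FlatPt (m - 1) rho (2 * lev rho r₀ i)
            {y ∈ stratum V x₁ R Q δ (512 * r₀) | ¬ bad y i} x) →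
        ∀ C : ℝ, 0 ≤ C → FlatExc (m - 1) rho (2 * eta) (max C₁ 0 + C) r₀
          {x ∈ stratum V x₁ R Q δ' (512 * r₀) | C₂ x ≤ C} := by
  classical
  have hmR : (0:ℝ) < m := by exact_mod_cast hm
  have hcg := cg_pos m
  -- the constants
  set M : ℝ := cg m * Q + 1 with hM
  have hM0 : 0 < M := by positivity
  set Cc : ℝ := 4 ^ (m + 3) * (1 + 2 * 4 ^ m * M / cg m) with hCc
  have hCc0 : 0 < Cc := by positivity
  set ε₂' : ℝ := min ε₂ (ε₀ / 4 / Cc) with hε₂'
  have hε₂'0 : 0 < ε₂' := lt_min hε₂ (by positivity)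
  obtain ⟨K0, hK0⟩ := exists_nat_ge (max C₁ 0 / eta)
  have hK0' : max C₁ 0 ≤ eta * K0 := by
    rw [div_le_iff₀ heta] at hK0; linarith
  set lg : ℝ := -Real.log (6 * rho) with hlg
  have hlg0 : 0 < lg := by
    rw [hlg, neg_pos]; exact Real.log_neg (by positivity) h1
  set η := etaNF m ε₂' (rho / 32) with hη
  have hη0 : 0 < η := etaNF_pos hm hε₂'0 (by positivity)
  set δ' : ℝ := min (min δ 1) (min η (ε₀ / (K0 * lg + 1))) with hδ'
  have hδ'0 : 0 < δ' := lt_min (lt_min hδ one_pos) (lt_min hη0 (by positivity))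
  have hδ'δ : δ' ≤ δ := (min_le_left _ _).trans (min_le_left _ _)
  have hδ'1 : δ' ≤ 1 := (min_le_left _ _).trans (min_le_right _ _)
  have hδ'η : δ' ≤ η := (min_le_right _ _).trans (min_le_left _ _)
  have hδ'K : δ' ≤ ε₀ / (K0 * lg + 1) := (min_le_right _ _).trans (min_le_right _ _)
  refine ⟨δ', hδ'0, hδ'δ, fun r₀ hr₀ hr₀R bad C₂ hb1 hb2 hb3 C hC => ?_⟩
  have hfin := V.finite_restrict hR
  have hls := V.locStat hst hR
  have hdl := V.densLow (x := x₁) (R := R)
  set ν := nu V x₁ R with hν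
  have hν' : ν = V.weight.restrict (closedBall x₁ R) := rfl
  rw [← hν'] at hls hdl hfin
  have hR0 : 0 < R := by linarith
  set A := stratum V x₁ R Q δ' (512 * r₀) with hA
  have hAsub : A ⊆ stratum V x₁ R Q δ (512 * r₀) := stratum_mono hδ'δ
  have hlev0 : ∀ i, 0 < lev rho r₀ i := lev_pos h0 hr₀
  have hlevle : ∀ i, lev rho r₀ i ≤ r₀ := lev_le h0 h1 hr₀
  -- facts on points of `A`
  have hball : ∀ x ∈ A, closedBall x (512 * r₀) ⊆ ball x₁ R := by
    intro x hx
    have := mem_ball.1 hx.2.1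
    exact closedBall_subset_ball' (by linarith)
  have hsupp : ∀ x ∈ A, x ∈ ν.support := by
    intro x hx
    exact V.mem_support hx.1.1 (ball_subset_ball (by linarith) hx.2.1)
  have hrat : ∀ x ∈ A, ∀ r, 0 < r → r ≤ 512 * r₀ →
      cg m * Q ≤ ratio m ν x r ∧ ratio m ν x r ≤ cg m * Q + δ' := by
    intro x hx r hr hr2
    refine ⟨?_, hx.2.2.2 r hr hr2⟩
    have h2 := hls.le_ratio hr ((closedBall_subset_closedBall hr2).trans (hball x hx))
    have h3 : MU.theta m ν x = V.theta x := by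
      rw [hν']
      exact V.theta_restrict (ball_subset_ball (by linarith) hx.2.1)
    rw [h3, hx.2.2.1] at h2
    exact h2
  have hdef : ∀ x ∈ A, ∀ r s, 0 < r → 0 < s → r ≤ 512 * r₀ → s ≤ 512 * r₀ →
      ratio m ν x r - ratio m ν x s ≤ δ' := by
    intro x hx r s hr hs hr2 hs2
    have h2 := (hrat x hx r hr hr2).2
    have h3 := (hrat x hx s hs hs2).1
    linarith
  -- short flat intervals
  have hshort : ∀ x ∈ A, ∀ i j, i ≤ j → j ≤ i + K0 → NonFlat m ν ε₀ x (16 * lev rho r₀ j) →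
      NonFlat m ν (ε₀ / 4) x (16 * lev rho r₀ i) := by
    intro x hx i j hij hjK hnf
    have hli := hlevle i
    have hanti := lev_anti h0 h1 hr₀ hij
    refine nonFlat_up hls (by have := hlev0 j; positivity) (by linarith)
      ((closedBall_subset_closedBall (by linarith)).trans (hball x hx)) hε₀ hnf ?_
    rw [log_lev h0 hr₀ (by norm_num) hij]
    have h2 := hdef x hx (16 * lev rho r₀ i) (16 * lev rho r₀ j) (by have := hlev0 i; positivity)
      (by have := hlev0 j; positivity) (by linarith) (by linarith [hlevle j])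
    have h3 : 0 ≤ ratio m ν x (16 * lev rho r₀ i) - ratio m ν x (16 * lev rho r₀ j) := by
      have := hls.ratio_mono (x := x) (r₁ := 16 * lev rho r₀ j) (r₂ := 16 * lev rho r₀ i)
        (by have := hlev0 j; positivity) (by linarith)
        ((closedBall_subset_closedBall (by linarith)).trans (hball x hx))
      linarith
    have h4 : (0:ℝ) ≤ (j:ℝ) - i := by
      have : (i:ℝ) ≤ j := by exact_mod_cast hij
      linarith
    have h5 : (j:ℝ) - i ≤ K0 := by
      have : (j:ℝ) ≤ i + K0 := by exact_mod_cast hjK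
      linarith
    calc ((j:ℝ) - i) * (-Real.log (6 * rho)) *
          (ratio m ν x (16 * lev rho r₀ i) - ratio m ν x (16 * lev rho r₀ j))
        ≤ K0 * lg * δ' := by
          have : 0 ≤ ((j:ℝ) - i) * lg := by positivity
          have : ((j:ℝ) - i) * lg ≤ K0 * lg := by gcongr
          gcongr
      _ ≤ (K0 * lg + 1) * (ε₀ / (K0 * lg + 1)) := by
          have : 0 ≤ (K0:ℝ) * lg := by positivity
          gcongr
          linarith
      _ = ε₀ := by field_simp
  -- exceptional levels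
  refine ⟨fun x i => bad x i ∧ ¬ NonFlat m ν (ε₀ / 4) x (16 * lev rho r₀ i), ?_, ?_⟩
  · rintro x ⟨hx, hxC⟩ k
    rw [cn_eq]
    have hsub : ∀ i, (bad x i ∧ ¬ NonFlat m ν (ε₀ / 4) x (16 * lev rho r₀ i)) → bad x i :=
      fun i h => h.1
    refine count_bad (flat := fun j => ¬ NonFlat m ν ε₀ x (16 * lev rho r₀ j)) (K0 := K0)
      (le_max_right _ _) hC heta.le hK0' ?_ ?_ ?_ k
    · rintro i ⟨-, hi⟩ j hij hjK hnf
      exact hi (hshort x hx i j hij hjK hnf)
    · intro a b hab hnf hfl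
      rw [not_not] at hnf
      refine (cn_sub_mono hsub hab).trans ((hb1 x (hAsub hx) a b hab hnf hfl).trans ?_)
      gcongr
      exact le_max_left _ _
    · intro b hfl
      refine (cn_mono hsub b).trans ((hb2 x (hAsub hx) b hfl).trans ?_)
      linarith
  · rintro x ⟨hx, hxC⟩ i hxi
    have hli := hlevle i
    have hli0 := hlev0 i
    by_cases hnf : NonFlat m ν ε₂' x (64 * lev rho r₀ i)
    · -- non-flat scale
      have key : FlatPt (m - 1) (rho / 32) (64 * lev rho r₀ i) A x := by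
        refine flatPt_of_nonFlat hls hm (by positivity) hε₂'0 (by positivity) ?_ hnf ?_
        · intro y hy _
          have hyA : y ∈ A := by
            rcases hy with rfl | hy
            · exact hx
            · exact hy
          exact (closedBall_subset_closedBall (by linarith)).trans (hball y hyA)
        · intro y hy _
          have hyA : y ∈ A := by
            rcases hy with rfl | hy
            · exact hx
            · exact hy
          exact (hdef y hyA _ _ (by positivity) (by positivity) (by linarith)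
            (by linarith)).trans hδ'η
      refine key.shrink (by linarith) (le_of_eq (by ring)) ?_
      rintro y ⟨⟨hy, -⟩, -⟩ -
      exact hy
    · -- flat scale
      obtain ⟨T, hT, hTh⟩ := exists_flat hnf
      have hclose : ∀ y ∈ A, dist y x ≤ 2 * lev rho r₀ i →
          ¬ NonFlat m ν (ε₀ / 4) y (16 * lev rho r₀ i) := by
        intro y hy hyx hcon
        have h3 := hcon T hT
        have h4 := height_center (T := T) (M := M) (r := 64 * lev rho r₀ i) hls hcg hdl
          (by positivity) ((closedBall_subset_closedBall (by linarith)).trans (hball x hx))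
          (hsupp y hy) (by rw [← dist_eq_norm]; linarith)
          ((hrat x hx _ (by positivity) (by linarith)).2.trans (by rw [hM]; linarith))
        have e5 : 64 * lev rho r₀ i / 4 = 16 * lev rho r₀ i := by ring
        rw [e5] at h4
        have h6 : Cc * height m ν T x (64 * lev rho r₀ i) < ε₀ / 4 := by
          calc Cc * height m ν T x (64 * lev rho r₀ i) < Cc * ε₂' := by gcongr
            _ ≤ Cc * (ε₀ / 4 / Cc) := by
                gcongr
                exact min_le_right _ _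
            _ = ε₀ / 4 := by field_simp
        linarith
      have hbx : ¬ bad x i := fun hb => hxi ⟨hb, hclose x hx (by rw [dist_self]; positivity)⟩
      have hnf2 : ¬ NonFlat m ν ε₂ x (64 * lev rho r₀ i) := fun h =>
        hnf (h.mono (min_le_left _ _))
      refine (hb3 x (hAsub hx) i hnf2 hbx).shrink le_rfl le_rfl ?_
      rintro y ⟨⟨hy, -⟩, hyb⟩ hyx
      exact ⟨hAsub hy, fun hb => hyb ⟨hb, hclose y hy hyx⟩⟩

/-- **Dimension bound at density `Q`.** -/
theorem dimH_density (hm : 1 ≤ m) (hU : IsOpen U) {V : IntegralVarifold m U}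
    (hst : V.IsStationary) {Q : ℕ} (hF : FreqProp V Q) :
    dimH {x ∈ V.sing | V.theta x = Q} ≤ ((m - 1 : ℕ) : ℝ≥0∞) := by
  by_contra hcon
  rw [not_le] at hcon
  obtain ⟨x₁, hx₁, hxt⟩ := exists_mem_nhdsWithin_lt_dimH_of_lt_dimH hcon
  obtain ⟨R, hR0, hR⟩ : ∃ R > 0, closedBall x₁ R ⊆ U :=
    nhds_basis_closedBall.mem_iff.1 (hU.mem_nhds hx₁.1.1.1)
  have h1 := hxt ({x ∈ V.sing | V.theta x = Q} ∩ ball x₁ (R / 8))
    (inter_mem self_mem_nhdsWithin (mem_nhdsWithin_of_mem_nhds (ball_mem_nhds _ (by positivity))))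
  refine absurd h1 (not_lt.2 ?_)
  have hfin := V.finite_restrict hR
  have hls := V.locStat hst hR
  refine dimH_le_of_flat_exc _ (m - 1) fun rho h0 h16 eta heta => ?_
  obtain ⟨ε₀, hε₀, ε₂, hε₂, δ, hδ, C₁, hprop⟩ := hF rho h0 h16 (eta / 2) (by positivity)
  obtain ⟨δ', hδ', hδδ', hmain⟩ := flatExc_of_freq (Q := Q) (C₁ := C₁) hm hst hR h0 h16
    (eta := eta / 2) (by positivity) hε₀ hε₂ hδ
  set rr : ℕ → ℝ := fun j => R / (1024 * ((j:ℝ) + 1)) with hrr
  have hrr0 : ∀ j, 0 < rr j := fun j => by rw [hrr]; positivity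
  have hrrR : ∀ j, 1024 * rr j ≤ R := fun j => by
    rw [hrr]
    have : (0:ℝ) ≤ j := Nat.cast_nonneg j
    rw [← mul_div_assoc, mul_div_mul_left _ _ (by norm_num : (1024:ℝ) ≠ 0)]
    exact div_le_self hR0.le (by linarith)
  choose bad C₂ hb1 hb2 hb3 using fun j => hprop x₁ R hR (rr j) (hrr0 j) (hrrR j)
  refine ⟨fun n => {x ∈ stratum V x₁ R Q δ' (512 * rr (Nat.unpair n).1) |
    C₂ (Nat.unpair n).1 x ≤ (Nat.unpair n).2}, ?_, fun n => ⟨rr (Nat.unpair n).1, hrr0 _,
    max C₁ 0 + (Nat.unpair n).2, ?_⟩⟩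
  · rintro x ⟨⟨hxs, hxQ⟩, hxb⟩
    rw [mem_iUnion]
    have hxO : x ∈ ball x₁ R := ball_subset_ball (by linarith) hxb
    have h2 := hls.tendsto_ratio hxO
    rw [V.theta_restrict hxO, hxQ] at h2
    have h3 := h2.eventually (gt_mem_nhds (show cg m * (Q:ℝ) < cg m * Q + δ' by linarith))
    obtain ⟨s, hs0, hs⟩ := (mem_nhdsGT_iff_exists_Ioo_subset).1 h3
    have hs0' : 0 < s := hs0
    obtain ⟨j, hj⟩ := exists_nat_gt (R / s)
    obtain ⟨k, hk⟩ := exists_nat_ge (C₂ j x)
    refine ⟨Nat.pair j k, ?_⟩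
    simp only [Nat.unpair_pair]
    refine ⟨⟨hxs, hxb, hxQ, fun r hr hrj => ?_⟩, hk⟩
    have h4 : r < s := by
      refine hrj.trans_lt ?_
      rw [hrr]
      rw [div_lt_iff₀ hs0'] at hj
      have h5 : 512 * (R / (1024 * ((j:ℝ) + 1))) = R / (2 * ((j:ℝ) + 1)) := by
        field_simp; norm_num
      simp only
      rw [h5, div_lt_iff₀ (by positivity)]
      nlinarith
    exact (hs ⟨hr, h4⟩).le
  · have h4 := hmain (rr (Nat.unpair n).1) (hrr0 _) (hrrR _) (bad _) (C₂ _) (hb1 _) (hb2 _) (hb3 _)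
      ((Nat.unpair n).2 : ℝ) (Nat.cast_nonneg _)
    have e : 2 * (eta / 2) = eta := by ring
    rw [e] at h4
    exact h4

/-- **Target B from the frequency property.** -/
theorem dimH_sing_le (hm : 1 ≤ m) (hU : IsOpen U) {V : IntegralVarifold m U}
    (hst : V.IsStationary) (hF : ∀ Q : ℕ, FreqProp V Q)
    (hint : ∀ x ∈ V.sing, (∃ T, V.IsBlowupPlane x T) → ∃ Q : ℕ, V.theta x = Q) :
    dimH V.sing ≤ ((m - 1 : ℕ) : ℝ≥0∞) := by
  have hcov : V.sing ⊆ {x ∈ V.sing | ∀ T, V.IsBlowupPlane x T → V.IsolatedAt x T} ∪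
      ⋃ Q : ℕ, {x ∈ V.sing | V.theta x = Q} := by
    intro x hx
    by_cases h : ∃ T, V.IsBlowupPlane x T
    · obtain ⟨Q, hQ⟩ := hint x hx h
      exact Or.inr (mem_iUnion.2 ⟨Q, hx, hQ⟩)
    · push Not at h
      exact Or.inl ⟨hx, fun T hT => absurd hT (h T)⟩
  refine (dimH_mono hcov).trans ?_
  rw [dimH_union, dimH_iUnion]
  exact max_le (V.dimH_sing hm hU hst) (iSup_le fun Q => dimH_density hm hU hst (hF Q))

end Vale.Agent.P214.DIM
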