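import Vale.Agent.P214.HS.MeanValue
import Vale.Agent.P214.FV.Planes

/-!
# P214, block DIM: Caccioppoli inequality in balls

`cacc` : the tilt in a ball is controlled by the height over a plane through any point.
-/

open Set Filter Topology MeasureTheory Metric
open scoped RealInnerProductSpace ENNReal NNReal

set_option linter.all false

namespace Vale.Agent.P214.DIM

open Vale.Agent.P214.HS

variable {E : Type*} [NormedAddCommGroup E] [InnerProductSpace ℝ E] [FiniteDimensional ℝ E]
  [MeasurableSpace E] [BorelSpace E]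

variable {x y c : E} {r : ℝ} {m : ℕ} {O : Set E} {ν : Measure E} {P : E → E →L[ℝ] E}
  {T : Submodule ℝ E}

lemma trAP_eq_tilt (T : Submodule ℝ E) (B : E →L[ℝ] E) :
    trAP Tᗮ.starProjection B = FV.tilt T B := by
  unfold trAP FV.tilt
  rw [FV.tr_eq_sum (stdOrthonormalBasis ℝ E), FV.co_eq]
  rfl

lemma norm_sq_fderiv_cut_le (hr : 0 < r) (x y w : E) :
    (fderiv ℝ (cut x r) y w) ^ 2 ≤ 16 / r ^ 2 * cut x r y * ‖w‖ ^ 2 := by
  rw [fderiv_cut]
  by_cases h : r ≤ ‖y - x‖
  · rw [dcut_eq_zero hr h, cut_eq_zero hr h]; simp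
  · have h1 : ⟪y - x, w⟫ ^ 2 ≤ ‖y - x‖ ^ 2 * ‖w‖ ^ 2 := by
      rw [← mul_pow, ← sq_abs]
      exact pow_le_pow_left₀ (abs_nonneg _) (abs_real_inner_le_norm _ _) 2
    have h2 : ‖y - x‖ ^ 2 ≤ r ^ 2 := pow_le_pow_left₀ (norm_nonneg _) (not_le.mp h).le 2
    have h3 : dcut x r y ^ 2 = 4 * cut x r y := by
      unfold dcut cut dprof prof; ring
    have h4 := cut_nonneg x r y
    calc (-(dcut x r y) * (2 / r ^ 2) * ⟪y - x, w⟫) ^ 2
        = dcut x r y ^ 2 * (4 / r ^ 4) * ⟪y - x, w⟫ ^ 2 := by
          field_simp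
          ring
      _ ≤ dcut x r y ^ 2 * (4 / r ^ 4) * (r ^ 2 * ‖w‖ ^ 2) := by
          gcongr
          exact h1.trans (by gcongr)
      _ = 16 / r ^ 2 * cut x r y * ‖w‖ ^ 2 := by
          rw [h3]
          have : r ^ 4 = r ^ 2 * r ^ 2 := by ring
          rw [this]
          field_simp
          ring

/-- measurability of the tilt -/
lemma aesm_tilt (h : LocStat m O ν P) (T : Submodule ℝ E) :
    AEStronglyMeasurable (fun y => FV.tilt T (P y)) ν := by
  have e : (fun y => FV.tilt T (P y)) = fun y => ∑ k, ⟪stdOrthonormalBasis ℝ E k,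
      Tᗮ.starProjection (P y (stdOrthonormalBasis ℝ E k))⟫ := by
    funext y; rw [← trAP_eq_tilt]; rfl
  rw [e]
  refine Finset.aestronglyMeasurable_fun_sum _ fun k _ => ?_
  refine aestronglyMeasurable_const.inner ?_
  refine Tᗮ.starProjection.continuous.comp_aestronglyMeasurable ?_
  exact aesm_clm_apply h.meas aestronglyMeasurable_const

lemma tilt_ae (h : LocStat m O ν P) (T : Submodule ℝ E) :
    ∀ᵐ y ∂ν, 0 ≤ FV.tilt T (P y) ∧ FV.tilt T (P y) ≤ m := by
  filter_upwards [h.proj] with y hy
  obtain ⟨S, hS, hP⟩ := hy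
  rw [hP]
  refine ⟨FV.tilt_nonneg S T, ?_⟩
  have := FV.tilt_le S T
  rwa [hS] at this

lemma integrable_cut_tilt [IsFiniteMeasure ν] (h : LocStat m O ν P) (T : Submodule ℝ E) (x : E)
    (r : ℝ) : Integrable (fun y => cut x r y * FV.tilt T (P y)) ν := by
  refine (integrable_const ((m:ℝ))).mono'
    ((continuous_cut x r).aestronglyMeasurable.mul (aesm_tilt h T)) ?_
  filter_upwards [tilt_ae h T] with y hy
  have h1 := cut_nonneg x r y
  have h2 := cut_le_one x r y
  rw [Real.norm_of_nonneg (mul_nonneg h1 hy.1)]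
  calc cut x r y * FV.tilt T (P y) ≤ 1 * m := mul_le_mul h2 hy.2 hy.1 zero_le_one
    _ = m := one_mul _

/-- **Caccioppoli inequality** in balls. -/
theorem cacc [IsFiniteMeasure ν] (h : LocStat m O ν P) (hr : 0 < r)
    (hball : closedBall x r ⊆ O) (T : Submodule ℝ E) (c : E) :
    ∫ y, cut x r y * FV.tilt T (P y) ∂ν ≤ 16 / r ^ 2 * ∫ y in ball x r, hsq T c y ∂ν := by
  have key := linear_field h Tᗮ.starProjection c (contDiff_cut x r) (hasCompactSupport_cut hr)
    ((tsupport_cut hr).trans hball)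
  simp only [trAP_eq_tilt] at key
  have hI1 := integrable_cut_tilt h T x r
  have hI2 : Integrable
      (fun y => fderiv ℝ (cut x r) y (P y (Tᗮ.starProjection (y - c)))) ν :=
    h.integrable_fderiv (contDiff_cut x r) (hasCompactSupport_cut hr) (by fun_prop)
  rw [integral_add hI1 hI2] at key
  have hI3 : IntegrableOn (hsq T c) (ball x r) ν :=
    ((contDiff_hsq T c (k := 0)).continuous.continuousOn.integrableOn_compact
      (isCompact_closedBall x r)).mono_set ball_subset_closedBall
  have hI4 : Integrable ((ball x r).indicator (hsq T c)) ν := hI3.integrable_indicator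
    measurableSet_ball
  have h1 : -(∫ y, fderiv ℝ (cut x r) y (P y (Tᗮ.starProjection (y - c))) ∂ν)
      ≤ ∫ y, (1 / 2 * (cut x r y * FV.tilt T (P y))
        + 8 / r ^ 2 * (ball x r).indicator (hsq T c) y) ∂ν := by
    rw [← integral_neg]
    refine integral_mono_ae hI2.neg ((hI1.const_mul _).add (hI4.const_mul _)) ?_
    filter_upwards [h.proj] with y hy
    obtain ⟨S, hS, hP⟩ := hy
    set v := Tᗮ.starProjection (y - c) with hv
    have hv2 : ‖v‖ ^ 2 = hsq T c y := rfl
    have e1 := norm_sq_fderiv_cut_le hr x y (P y v)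
    have e2 : ‖P y v‖ ^ 2 ≤ FV.tilt T (P y) * ‖v‖ ^ 2 := by
      rw [hP]
      exact FV.norm_sq_star_le_of_mem (Submodule.starProjection_apply_mem _ _)
    have hc := cut_nonneg x r y
    have hc1 := cut_le_one x r y
    have ht : 0 ≤ FV.tilt T (P y) := by rw [hP]; exact FV.tilt_nonneg S T
    by_cases hyb : y ∈ ball x r
    · rw [indicator_of_mem hyb, ← hv2]
      set a := cut x r y * FV.tilt T (P y) with ha
      have ha0 : 0 ≤ a := mul_nonneg hc ht
      have e3 : (fderiv ℝ (cut x r) y (P y v)) ^ 2 ≤ 16 / r ^ 2 * (a * ‖v‖ ^ 2) := by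
        refine e1.trans ?_
        calc 16 / r ^ 2 * cut x r y * ‖P y v‖ ^ 2
            ≤ 16 / r ^ 2 * cut x r y * (FV.tilt T (P y) * ‖v‖ ^ 2) := by gcongr
          _ = 16 / r ^ 2 * (a * ‖v‖ ^ 2) := by rw [ha]; ring
      -- AM-GM
      have e4 : (fderiv ℝ (cut x r) y (P y v)) ^ 2
          ≤ (1 / 2 * a + 8 / r ^ 2 * ‖v‖ ^ 2) ^ 2 := by
        refine e3.trans ?_
        have : (1 / 2 * a + 8 / r ^ 2 * ‖v‖ ^ 2) ^ 2 - 16 / r ^ 2 * (a * ‖v‖ ^ 2)
            = (1 / 2 * a - 8 / r ^ 2 * ‖v‖ ^ 2) ^ 2 := by ring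
        nlinarith [sq_nonneg (1 / 2 * a - 8 / r ^ 2 * ‖v‖ ^ 2)]
      have e5 := abs_le_of_sq_le_sq e4 (by positivity)
      have := abs_le.1 e5
      linarith
    · rw [indicator_of_notMem hyb]
      rw [mem_ball, not_lt, dist_eq_norm] at hyb
      have e3 : fderiv ℝ (cut x r) y (P y v) = 0 := by
        rw [fderiv_cut, dcut_eq_zero hr hyb]; simp
      rw [e3, cut_eq_zero hr hyb]
      simp
  rw [integral_add (hI1.const_mul _) (hI4.const_mul _), integral_const_mul, integral_const_mul,
    integral_indicator measurableSet_ball] at h1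
  have h2 : ∫ y, cut x r y * FV.tilt T (P y) ∂ν
      ≤ 2 * (8 / r ^ 2 * ∫ y in ball x r, hsq T c y ∂ν) := by linarith
  refine h2.trans (le_of_eq ?_)
  ring

/-- the squared norm tilt in the quarter ball is controlled by the height -/
theorem tiltsq_le_height [IsFiniteMeasure ν] (h : LocStat m O ν P) (hr : 0 < r)
    (hball : closedBall x r ⊆ O) (hT : Module.finrank ℝ T = m) :
    ∫ y in closedBall x (r / 4), ‖P y - T.starProjection‖ ^ 2 ∂ν
      ≤ 512 * r ^ m * height m ν T x r := by
  have h1 := cacc h (r := r / 2) (x := x) (by positivity)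
    ((closedBall_subset_closedBall (by linarith)).trans hball) T x
  -- the left side
  have hI1 := integrable_cut_tilt h T x (r / 2)
  have h2 : 9 / 32 * ∫ y in closedBall x (r / 4), ‖P y - T.starProjection‖ ^ 2 ∂ν
      ≤ ∫ y, cut x (r / 2) y * FV.tilt T (P y) ∂ν := by
    rw [← integral_const_mul]
    have h3 : ∫ y in closedBall x (r / 4), 9 / 32 * ‖P y - T.starProjection‖ ^ 2 ∂ν
        ≤ ∫ y in closedBall x (r / 4), cut x (r / 2) y * FV.tilt T (P y) ∂ν := by
      refine integral_mono_ae ((h.integrableOn_tiltsq T.starProjection _).const_mul _)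
        hI1.integrableOn ?_
      filter_upwards [ae_restrict_of_ae h.proj, ae_restrict_mem measurableSet_closedBall]
        with y hy hyb
      obtain ⟨S, hS, hP⟩ := hy
      rw [mem_closedBall, dist_eq_norm] at hyb
      have e1 := cut_ge (x := x) (y := y) (r := r / 2) (by positivity) (by linarith)
      have e2 : ‖P y - T.starProjection‖ ^ 2 ≤ 2 * FV.tilt T (P y) := by
        rw [hP]
        have ht := FV.tilt_nonneg S T
        have e3 : ‖S.starProjection - T.starProjection‖ ≤ √(2 * FV.tilt T S.starProjection) := by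
          refine ContinuousLinearMap.opNorm_le_bound _ (Real.sqrt_nonneg _) fun v => ?_
          have e4 := FV.norm_sq_sub_le S T (by rw [hS, hT]) v
          have e5 : ‖(S.starProjection - T.starProjection) v‖ ^ 2
              ≤ (√(2 * FV.tilt T S.starProjection) * ‖v‖) ^ 2 := by
            rw [mul_pow, Real.sq_sqrt (by positivity)]
            exact e4
          exact (pow_le_pow_iff_left₀ (norm_nonneg _) (by positivity) two_ne_zero).1 e5
        have e6 := pow_le_pow_left₀ (norm_nonneg _) e3 2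
        rwa [Real.sq_sqrt (by positivity)] at e6
      have e7 : 0 ≤ FV.tilt T (P y) := by rw [hP]; exact FV.tilt_nonneg S T
      show 9 / 32 * ‖P y - T.starProjection‖ ^ 2 ≤ cut x (r / 2) y * FV.tilt T (P y)
      nlinarith
    refine h3.trans (setIntegral_le_integral hI1 ?_)
    filter_upwards [tilt_ae h T] with y hy
    exact mul_nonneg (cut_nonneg _ _ _) hy.1
  -- the right side
  have h4 : ∫ y in ball x (r / 2), hsq T x y ∂ν ≤ 16 / 9 * (height m ν T x r * r ^ (m + 2)) := by
    have hw : wmass ν x (hsq T x) r = height m ν T x r * r ^ (m + 2) := by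
      unfold height; field_simp
    rw [← hw]
    unfold wmass
    rw [← integral_const_mul]
    have hI3 : IntegrableOn (hsq T x) (ball x (r / 2)) ν :=
      ((contDiff_hsq T x (k := 0)).continuous.continuousOn.integrableOn_compact
        (isCompact_closedBall x (r / 2))).mono_set ball_subset_closedBall
    have hI5 := integrable_cut_hsq (T := T) (z := x) (ν := ν) hr x
    have h5 : ∫ y in ball x (r / 2), hsq T x y ∂ν
        ≤ ∫ y in ball x (r / 2), 16 / 9 * (cut x r y * hsq T x y) ∂ν := by
      refine setIntegral_mono_on hI3 (hI5.const_mul _).integrableOn measurableSet_ball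
        fun y hy => ?_
      rw [mem_ball, dist_eq_norm] at hy
      have e1 := cut_ge (x := x) (y := y) hr hy.le
      have e2 := hsq_nonneg T x y
      nlinarith
    refine h5.trans (setIntegral_le_integral (hI5.const_mul _) (Eventually.of_forall fun y => ?_))
    have e1 := cut_nonneg x r y
    have e2 := hsq_nonneg T x y
    simp only [Pi.zero_apply]
    positivity
  have hH : 0 ≤ height m ν T x r := height_nonneg hr
  have h6 : 9 / 32 * ∫ y in closedBall x (r / 4), ‖P y - T.starProjection‖ ^ 2 ∂ν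
      ≤ 16 / (r / 2) ^ 2 * (16 / 9 * (height m ν T x r * r ^ (m + 2))) :=
    h2.trans (h1.trans (by gcongr))
  have e8 : 16 / (r / 2) ^ 2 * (16 / 9 * (height m ν T x r * r ^ (m + 2)))
      = 1024 / 9 * (r ^ m * height m ν T x r) := by
    rw [pow_add]; field_simp; ring
  rw [e8] at h6
  have h7 : 0 ≤ r ^ m * height m ν T x r := by positivity
  nlinarith

end Vale.Agent.P214.DIM
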