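import Vale.Agent.P214.DIM.Cover

/-!
# P214, block DIM: covering lemma, limsup version

The points with at most `η k` exceptional levels below `k`, for infinitely many `k`, form an
`H^s`-null set (`hausdorff_zero_freq`), resp. a set of dimension at most `d` (`dimH_le_freq`).
-/

open MeasureTheory Set Filter Topology
open scoped ENNReal NNReal

set_option linter.all false

namespace Vale.Agent.P214.DIM

variable {E : Type*} [NormedAddCommGroup E] [InnerProductSpace ℝ E] [FiniteDimensional ℝ E]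

/-- flatness at the non-exceptional levels -/
def FlatGood (d : ℕ) (rho r0 : ℝ) (A : Set E) (bad : E → ℕ → Prop) : Prop :=
  ∀ x ∈ A, ∀ i, ¬ bad x i → FlatPt d rho (2 * lev rho r0 i) {y ∈ A | ¬ bad y i} x

/-- the points with few exceptional levels, infinitely often -/
def fewBad (eta : ℝ) (A : Set E) (bad : E → ℕ → Prop) : Set E :=
  {x ∈ A | ∃ᶠ k in atTop, (({i | i < k ∧ bad x i} : Set ℕ).ncard : ℝ) ≤ eta * k}

lemma hausdorff_zero_freq_local [MeasurableSpace E] [BorelSpace E] (d : ℕ) {rho s t eta : ℝ}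
    (h0 : 0 < rho) (h1 : 6 * rho < 1) (hs : 0 ≤ s) (ht : 0 < t) (ht1 : t ≤ 1)
    (hlt : ((cellNum d rho : ℝ) + t * cellNum (Module.finrank ℝ E) rho) * t ^ (-eta)
      * (6 * rho) ^ s < 1) {r0 : ℝ} (hr0 : 0 < r0) {A : Set E} {bad : E → ℕ → Prop}
    (hfl : FlatGood d rho r0 A bad) {x0 : E} (hx0 : x0 ∈ A) :
    μH[s] (fewBad eta A bad ∩ Metric.closedBall x0 r0) = 0 := by
  classical
  have hcov : ∀ (k : ℕ) (τ : Fin k → Bool), ∃ F : Finset E,
      F.card ≤ ∏ i ∈ Finset.range k, cst E d rho (ext τ i) ∧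
      (¬ ((cnt τ : ℝ) ≤ eta * k + 0) → F.card = 0) ∧
      ((cnt τ : ℝ) ≤ eta * k + 0 → pat A bad k (ext τ) ∩ Metric.closedBall x0 r0 ⊆
        ⋃ y ∈ F, Metric.closedBall y (lev rho r0 k)) := by
    intro k τ
    by_cases hM : (cnt τ : ℝ) ≤ eta * k + 0
    · obtain ⟨F, h1, h2⟩ := cover_pat d h0 hr0 hfl hx0 (ext τ) k
      exact ⟨F, h1, fun h => absurd hM h, fun _ => h2⟩
    · exact ⟨∅, by simp, fun _ => by simp, fun h => absurd h hM⟩
  choose F hFc hF0 hFcov using hcov
  set c : ℝ := (cellNum d rho : ℝ) + t * cellNum (Module.finrank ℝ E) rho with hc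
  have hc0 : 0 ≤ c := by positivity
  set q : ℝ := c * t ^ (-eta) * (6 * rho) ^ s with hq
  have hq0 : 0 ≤ q := by positivity
  set Cc : ℝ := t ^ (-(0:ℝ)) * (2 * r0) ^ s with hCc
  have hCc0 : 0 ≤ Cc := by positivity
  -- one level
  have hbound : ∀ k : ℕ, (∑ y : (Σ τ : Fin k → Bool, F k τ),
      Metric.ediam (Metric.closedBall ((y.2 : E)) (lev rho r0 k)) ^ s) ≤
      ENNReal.ofReal (q ^ k * Cc) := by
    intro k
    have hl := lev_pos (rho := rho) (r0 := r0) h0 hr0 k
    have hN := card_bound (E := E) d (rho := rho) ht ht1 k (fun τ => (F k τ).card) (hFc k)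
      (M := eta * k + 0) (hF0 k)
    calc (∑ y : (Σ τ : Fin k → Bool, F k τ),
          Metric.ediam (Metric.closedBall ((y.2 : E)) (lev rho r0 k)) ^ s)
        ≤ ∑ _y : (Σ τ : Fin k → Bool, F k τ), ENNReal.ofReal ((2 * lev rho r0 k) ^ s) := by
          apply Finset.sum_le_sum
          intro y _
          rw [← ENNReal.ofReal_rpow_of_nonneg (by positivity) hs]
          exact ENNReal.rpow_le_rpow (ediam_cb_le _ hl.le) hs
      _ = ((∑ τ : Fin k → Bool, (F k τ).card : ℕ) : ℝ≥0∞)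
            * ENNReal.ofReal ((2 * lev rho r0 k) ^ s) := by
          rw [Finset.sum_const, Finset.card_univ, Fintype.card_sigma, nsmul_eq_mul]
          simp
      _ ≤ ENNReal.ofReal (t ^ (-(eta * k + 0)) * c ^ k)
            * ENNReal.ofReal ((2 * lev rho r0 k) ^ s) := by
          gcongr
          rw [← ENNReal.ofReal_natCast]
          refine ENNReal.ofReal_le_ofReal ?_
          push_cast
          exact hN
      _ = ENNReal.ofReal (q ^ k * Cc) := by
          rw [← ENNReal.ofReal_mul (by positivity), algebra_bound h0 ht hr0]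
  -- all levels from `K` on
  have key := Measure.hausdorffMeasure_le_liminf_tsum (l := (atTop : Filter ℕ))
    (ι := fun K => Σ k : ℕ, Σ τ : Fin (K + k) → Bool, F (K + k) τ) s
    (fewBad eta A bad ∩ Metric.closedBall x0 r0)
    (fun K => ENNReal.ofReal (2 * lev rho r0 K))
    (by
      have : Tendsto (fun k : ℕ => 2 * lev rho r0 k) atTop (𝓝 (2 * (0 * r0))) :=
        ((tendsto_pow_atTop_nhds_zero_of_lt_one (by positivity) h1).mul_const r0).const_mul 2
      have h2 := ENNReal.tendsto_ofReal this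
      simpa using h2)
    (fun K y => Metric.closedBall ((y.2.2 : E)) (lev rho r0 (K + y.1)))
    (Eventually.of_forall fun K y => by
      refine (ediam_cb_le (y.2.2 : E) (lev_pos h0 hr0 _).le).trans ?_
      refine ENNReal.ofReal_le_ofReal ?_
      have h2 : lev rho r0 (K + y.1) ≤ lev rho r0 K := by
        unfold lev
        have h3 : (6 * rho) ^ (K + y.1) ≤ (6 * rho) ^ K :=
          pow_le_pow_of_le_one (by positivity) h1.le (by omega)
        nlinarith
      linarith)
    (Eventually.of_forall fun K => by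
      rintro z ⟨⟨hzA, hzf⟩, hzx⟩
      obtain ⟨k, hk, hkK⟩ := (hzf.and_eventually (eventually_ge_atTop K)).exists
      obtain ⟨j, rfl⟩ := Nat.exists_eq_add_of_le hkK
      have h3 : (cnt (patOf bad (K + j) z) : ℝ) ≤ eta * ((K + j : ℕ) : ℝ) + 0 := by
        rw [cnt_patOf, add_zero]
        exact hk
      have h2 := hFcov (K + j) (patOf bad (K + j) z) h3 ⟨mem_pat hzA, hzx⟩
      rw [mem_iUnion₂] at h2
      obtain ⟨y, hy, hz⟩ := h2
      exact mem_iUnion.2 ⟨⟨j, patOf bad (K + j) z, ⟨y, hy⟩⟩, hz⟩)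
  have htsum : ∀ K : ℕ, (∑' y : (Σ k : ℕ, Σ τ : Fin (K + k) → Bool, F (K + k) τ),
      Metric.ediam (Metric.closedBall ((y.2.2 : E)) (lev rho r0 (K + y.1))) ^ s) ≤
      ENNReal.ofReal (q ^ K * (Cc * (1 - q)⁻¹)) := by
    intro K
    refine le_trans (le_of_eq (ENNReal.tsum_sigma
      fun (k : ℕ) (b : Σ τ : Fin (K + k) → Bool, F (K + k) τ) =>
        Metric.ediam (Metric.closedBall ((b.2 : E)) (lev rho r0 (K + k))) ^ s)) ?_
    calc (∑' k : ℕ, ∑' b : (Σ τ : Fin (K + k) → Bool, F (K + k) τ),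
          Metric.ediam (Metric.closedBall ((b.2 : E)) (lev rho r0 (K + k))) ^ s)
        ≤ ∑' k : ℕ, ENNReal.ofReal (q ^ (K + k) * Cc) := by
          refine ENNReal.tsum_le_tsum fun k => ?_
          rw [tsum_fintype]
          exact hbound (K + k)
      _ = ENNReal.ofReal (∑' k : ℕ, q ^ (K + k) * Cc) := by
          rw [ENNReal.ofReal_tsum_of_nonneg (fun k => by positivity)]
          have h5 := (summable_geometric_of_lt_one hq0 hlt).mul_left (q ^ K * Cc)
          refine h5.congr fun k => ?_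
          rw [pow_add]; ring
      _ = ENNReal.ofReal (q ^ K * (Cc * (1 - q)⁻¹)) := by
          congr 1
          have h6 : ∀ k : ℕ, q ^ (K + k) * Cc = (q ^ K * Cc) * q ^ k := fun k => by
            rw [pow_add]; ring
          simp_rw [h6]
          rw [tsum_mul_left, tsum_geometric_of_lt_one hq0 hlt]
          ring
  have hlim : Tendsto (fun K : ℕ => ENNReal.ofReal (q ^ K * (Cc * (1 - q)⁻¹))) atTop (𝓝 0) := by
    have h2 := ((tendsto_pow_atTop_nhds_zero_of_lt_one hq0 hlt).mul_const (Cc * (1 - q)⁻¹))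
    have h3 := ENNReal.tendsto_ofReal h2
    simpa using h3
  have h4 : liminf (fun K : ℕ => ∑' y : (Σ k : ℕ, Σ τ : Fin (K + k) → Bool, F (K + k) τ),
      Metric.ediam (Metric.closedBall ((y.2.2 : E)) (lev rho r0 (K + y.1))) ^ s) atTop ≤ 0 := by
    calc _ ≤ liminf (fun K : ℕ => ENNReal.ofReal (q ^ K * (Cc * (1 - q)⁻¹))) atTop :=
          liminf_le_liminf (Eventually.of_forall htsum)
      _ = 0 := hlim.liminf_eq
  exact le_antisymm (key.trans h4) bot_le

theorem hausdorff_zero_freq [MeasurableSpace E] [BorelSpace E] (d : ℕ) {rho s t eta : ℝ}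
    (h0 : 0 < rho) (h1 : 6 * rho < 1) (hs : 0 ≤ s) (ht : 0 < t) (ht1 : t ≤ 1)
    (hlt : ((cellNum d rho : ℝ) + t * cellNum (Module.finrank ℝ E) rho) * t ^ (-eta)
      * (6 * rho) ^ s < 1) {r0 : ℝ} (hr0 : 0 < r0) {A : Set E} {bad : E → ℕ → Prop}
    (hfl : FlatGood d rho r0 A bad) :
    μH[s] (fewBad eta A bad) = 0 := by
  obtain ⟨u, huA, huc, hucov⟩ := TopologicalSpace.countable_cover_nhdsWithin
    (s := fewBad eta A bad) (f := fun x => Metric.closedBall x r0)
    (fun x _ => mem_nhdsWithin_of_mem_nhds (Metric.closedBall_mem_nhds x hr0))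
  have h2 : fewBad eta A bad ⊆ ⋃ x ∈ u, fewBad eta A bad ∩ Metric.closedBall x r0 := by
    intro y hy
    have := hucov hy
    rw [mem_iUnion₂] at this ⊢
    obtain ⟨x, hx, hyx⟩ := this
    exact ⟨x, hx, hy, hyx⟩
  refine measure_mono_null h2 ?_
  rw [measure_biUnion_null_iff huc]
  intro x hx
  exact hausdorff_zero_freq_local d h0 h1 hs ht ht1 hlt hr0 hfl (huA hx).1

/-- **Covering lemma with exceptional scales, limsup version.** -/
theorem dimH_le_freq (A : Set E) (d : ℕ)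
    (H : ∀ rho : ℝ, 0 < rho → 6 * rho < 1 → ∀ eta : ℝ, 0 < eta → ∃ Aj : ℕ → Set E,
      A ⊆ ⋃ j, Aj j ∧ ∀ j, ∃ r0 : ℝ, 0 < r0 ∧ ∃ (B : Set E) (bad : E → ℕ → Prop),
        FlatGood d rho r0 B bad ∧ Aj j ⊆ fewBad eta B bad) :
    dimH A ≤ d := by
  borelize E
  refine le_of_forall_gt_imp_ge_of_dense (fun b hb => ?_)
  obtain ⟨s, hs1, hs2⟩ := ENNReal.lt_iff_exists_nnreal_btwn.1 hb
  have hds : (d : ℝ) < s := by
    have : ((d : ℝ≥0) : ℝ≥0∞) < (s : ℝ≥0∞) := by simpa using hs1
    have h2 := ENNReal.coe_lt_coe.1 this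
    exact_mod_cast h2
  obtain ⟨rho, h0, h1, eta, heta, t, ht, ht1, hlt⟩ := exists_rho_eta E d hds
  obtain ⟨Aj, hcov, hAj⟩ := H rho h0 h1 eta heta
  have hzero : μH[(s : ℝ)] A = 0 := by
    refine measure_mono_null hcov ?_
    rw [measure_iUnion_null_iff]
    intro j
    obtain ⟨r0, hr0, B, bad, hfl, hsub⟩ := hAj j
    exact measure_mono_null hsub (hausdorff_zero_freq d h0 h1 s.2 ht ht1 hlt hr0 hfl)
  have h3 : dimH A ≤ s := dimH_le_of_hausdorffMeasure_ne_top (by rw [hzero]; simp)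
  exact h3.trans hs2.le

end Vale.Agent.P214.DIM
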