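import Vale.Agent.P214.DIM.Hinf
import Vale.Agent.P214.DIM.Freq

/-!
# P214, block DIM: power decay off a set of dimension `m - 1` (sequences and covering)
-/

open Set Filter Topology MeasureTheory Metric
open scoped RealInnerProductSpace ENNReal NNReal

set_option linter.all false

namespace Vale.Agent.P214.DIM

open Vale.Agent.P214.HS

section sequences

/-- multiplicative gain at the bad levels -/
lemma seq_decay {b : ℕ → ℝ} {q : ℝ} {L : ℕ} (hb0 : ∀ i, 0 ≤ b i) (hanti : Antitone b)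
    (hq0 : 0 ≤ q) {bad : ℕ → Prop} [DecidablePred bad]
    (hb : ∀ i, bad i → b (i + (L + 1)) ≤ q * b i) (k : ℕ) :
    b (k + (L + 1)) ^ (L + 1) ≤ b 0 ^ (L + 1) * q ^ (Nat.count bad k) := by
  set P : ℕ → ℝ := fun k => ∏ j ∈ Finset.range (L + 1), b (k + j) with hP
  have hP0 : P 0 ≤ b 0 ^ (L + 1) := by
    rw [hP]
    calc ∏ j ∈ Finset.range (L + 1), b (0 + j) ≤ ∏ _j ∈ Finset.range (L + 1), b 0 :=
          Finset.prod_le_prod (fun j _ => hb0 _) fun j _ => hanti (by omega)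
      _ = b 0 ^ (L + 1) := by rw [Finset.prod_const, Finset.card_range]
  have hPk : ∀ k, b (k + (L + 1)) ^ (L + 1) ≤ P k := by
    intro k
    calc b (k + (L + 1)) ^ (L + 1) = ∏ _j ∈ Finset.range (L + 1), b (k + (L + 1)) := by
          rw [Finset.prod_const, Finset.card_range]
      _ ≤ ∏ j ∈ Finset.range (L + 1), b (k + j) :=
          Finset.prod_le_prod (fun j _ => hb0 _) fun j hj => hanti (by
            have := Finset.mem_range.1 hj; omega)
  have hstep : ∀ k, P (k + 1) ≤ (if bad k then q else 1) * P k := by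
    intro k
    have e1 : P (k + 1) = (∏ j ∈ Finset.range L, b (k + 1 + j)) * b (k + (L + 1)) := by
      rw [hP]
      simp only
      rw [Finset.prod_range_succ]
      congr 2
      ring
    have e2 : P k = (∏ j ∈ Finset.range L, b (k + 1 + j)) * b k := by
      rw [hP]
      simp only
      rw [Finset.prod_range_succ']
      simp only [add_zero]
      congr 1
      refine Finset.prod_congr rfl fun j _ => ?_
      congr 1
      ring
    have h0 : 0 ≤ ∏ j ∈ Finset.range L, b (k + 1 + j) := Finset.prod_nonneg fun j _ => hb0 _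
    rw [e1, e2]
    by_cases hk : bad k
    · rw [if_pos hk]
      calc _ ≤ (∏ j ∈ Finset.range L, b (k + 1 + j)) * (q * b k) := by
            gcongr
            exact hb k hk
        _ = _ := by ring
    · rw [if_neg hk, one_mul]
      gcongr
      exact hanti (by omega)
  have hall : ∀ k, P k ≤ P 0 * q ^ (Nat.count bad k) := by
    intro k
    induction k with
    | zero => simp
    | succ k ih =>
      refine (hstep k).trans ?_
      rw [Nat.count_succ]
      by_cases hk : bad k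
      · rw [if_pos hk, if_pos hk, pow_succ]
        calc q * P k ≤ q * (P 0 * q ^ (Nat.count bad k)) := by gcongr
          _ = _ := by ring
      · rw [if_neg hk, if_neg hk, one_mul, add_zero]
        exact ih
  refine (hPk k).trans ((hall k).trans ?_)
  gcongr

/-- from an eventual bound to a bound -/
lemma bound_of_eventually {a : ℕ → ℝ} {θ C : ℝ} (hθ : 0 < θ) (h : ∀ᶠ n in atTop, a n ≤ C * θ ^ n) :
    ∃ C' : ℝ, 0 ≤ C' ∧ ∀ n, a n ≤ C' * θ ^ n := by
  obtain ⟨n₀, hn⟩ := eventually_atTop.1 h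
  refine ⟨|C| + ∑ j ∈ Finset.range n₀, |a j| / θ ^ j, by positivity, fun n => ?_⟩
  have h0 : 0 ≤ ∑ j ∈ Finset.range n₀, |a j| / θ ^ j := by positivity
  rcases lt_or_ge n n₀ with h1 | h1
  · have h2 : |a n| / θ ^ n ≤ ∑ j ∈ Finset.range n₀, |a j| / θ ^ j :=
      Finset.single_le_sum (f := fun j => |a j| / θ ^ j) (fun j _ => by positivity)
        (Finset.mem_range.2 h1)
    rw [add_mul]
    have h3 : |a n| / θ ^ n * θ ^ n ≤ (∑ j ∈ Finset.range n₀, |a j| / θ ^ j) * θ ^ n := by gcongr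
    rw [div_mul_cancel₀ _ (by positivity)] at h3
    have h4 := le_abs_self (a n)
    have h5 : 0 ≤ |C| * θ ^ n := by positivity
    linarith
  · refine (hn n h1).trans ?_
    have h4 := le_abs_self C
    gcongr
    linarith

/-- exponential decay from a positive density of bad levels -/
lemma exp_decay {b h : ℕ → ℝ} {q c K eta : ℝ} {N : ℕ} {bad : ℕ → Prop} (hN : 1 ≤ N)
    (hb0 : ∀ i, 0 ≤ b i) (hanti : Antitone b) (hq0 : 0 < q) (hq1 : q < 1) (hc : 0 < c)
    (hK : 0 ≤ K) (heta : 0 < eta)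
    (h1 : ∀ i, bad i → b (i + 2 * N) ≤ q * b i)
    (h2 : ∀ i, bad i → h (i + N) ≤ b i / c)
    (h3 : ∀ i j, i ≤ j → h j ≤ 2 * h i + K * j * b i)
    (h4 : ∀ᶠ k : ℕ in atTop, eta * k < (({i | i < k ∧ bad i} : Set ℕ).ncard : ℝ)) :
    ∃ θ C : ℝ, 0 < θ ∧ θ < 1 ∧ 0 ≤ C ∧ ∀ n, h n ≤ C * θ ^ n ∧ b n ≤ C * θ ^ n := by
  classical
  set L := 2 * N - 1 with hL
  have hL1 : L + 1 = 2 * N := by omega
  have hseq : ∀ k, b (k + (L + 1)) ^ (L + 1) ≤ b 0 ^ (L + 1) * q ^ (Nat.count bad k) :=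
    seq_decay hb0 hanti hq0.le (fun i hi => by rw [hL1]; exact h1 i hi)
  have hcount : ∀ k : ℕ, (({i | i < k ∧ bad i} : Set ℕ).ncard : ℝ) = (Nat.count bad k : ℝ) := by
    intro k
    rw [cn_eq]
    unfold cn
    congr 2
  simp_rw [hcount] at h4
  have hL0 : (0:ℝ) < ((L + 1 : ℕ) : ℝ) := by positivity
  set θ₁ : ℝ := q ^ (eta / ((L + 1 : ℕ) : ℝ)) with hθ₁
  have hθ₁0 : 0 < θ₁ := Real.rpow_pos_of_pos hq0 _
  have hθ₁1 : θ₁ < 1 := Real.rpow_lt_one hq0.le hq1 (by positivity)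
  -- decay of `b`
  have hbev : ∀ᶠ n : ℕ in atTop, b n ≤ (b 0 / θ₁ ^ (L + 1)) * θ₁ ^ n := by
    obtain ⟨k₀, hk₀⟩ := eventually_atTop.1 h4
    filter_upwards [eventually_ge_atTop (k₀ + (L + 1))] with n hn
    obtain ⟨k, rfl⟩ : ∃ k, n = k + (L + 1) := ⟨n - (L + 1), by omega⟩
    have hk := hk₀ k (by omega)
    have e : b 0 / θ₁ ^ (L + 1) * θ₁ ^ (k + (L + 1)) = b 0 * θ₁ ^ k := by
      rw [pow_add θ₁ k (L + 1)]; field_simp
    rw [e]
    refine (pow_le_pow_iff_left₀ (hb0 _) (mul_nonneg (hb0 0) (by positivity))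
      (Nat.succ_ne_zero L)).1 ?_
    refine (hseq k).trans ?_
    rw [mul_pow]
    refine mul_le_mul_of_nonneg_left ?_ (pow_nonneg (hb0 0) _)
    have h5 : (θ₁ ^ k) ^ (L + 1) = q ^ (eta * k) := by
      rw [← pow_mul, hθ₁, ← Real.rpow_natCast, ← Real.rpow_mul hq0.le]
      congr 1
      push_cast
      field_simp
    rw [h5, ← Real.rpow_natCast]
    exact Real.rpow_le_rpow_of_exponent_ge hq0 hq1.le hk.le
  obtain ⟨C₁, hC₁, hC₁b⟩ := bound_of_eventually hθ₁0 hbev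
  -- decay of `h`
  set θ₂ : ℝ := θ₁ ^ eta with hθ₂
  have hθ₂0 : 0 < θ₂ := Real.rpow_pos_of_pos hθ₁0 _
  have hθ₂1 : θ₂ < 1 := Real.rpow_lt_one hθ₁0.le hθ₁1 heta
  set θ₃ : ℝ := √θ₂ with hθ₃
  have hθ₃0 : 0 < θ₃ := Real.sqrt_pos.2 hθ₂0
  have hθ₃1 : θ₃ < 1 := by
    rw [hθ₃, Real.sqrt_lt' one_pos]; simpa using hθ₂1
  have hθ₃sq : θ₃ * θ₃ = θ₂ := Real.mul_self_sqrt hθ₂0.le
  obtain ⟨D, hD⟩ : ∃ D : ℝ, ∀ n : ℕ, (n : ℝ) * θ₃ ^ n ≤ D := by
    have := (tendsto_self_mul_const_pow_of_lt_one hθ₃0.le hθ₃1).bddAbove_range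
    obtain ⟨D, hD⟩ := this
    exact ⟨D, fun n => hD ⟨n, rfl⟩⟩
  set C₂ : ℝ := θ₁ ^ (-(eta * N) - 1) with hC₂
  have hC₂0 : 0 < C₂ := Real.rpow_pos_of_pos hθ₁0 _
  have hD0 : 0 ≤ D := by simpa using hD 0
  have hhev : ∀ᶠ n : ℕ in atTop, h n ≤ ((2 / c + K * D) * C₁ * C₂) * θ₃ ^ n := by
    obtain ⟨k₀, hk₀⟩ := eventually_atTop.1 h4
    filter_upwards [eventually_ge_atTop (k₀ + N)] with n hn
    obtain ⟨k, rfl⟩ : ∃ k, n = k + N := ⟨n - N, by omega⟩
    have hk := hk₀ k (by omega)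
    -- a late bad level
    obtain ⟨i, hik, hbi, hi⟩ : ∃ i, i < k ∧ bad i ∧ eta * k - 1 ≤ i := by
      by_contra hcon
      push Not at hcon
      have h5 : Nat.count bad k ≤ ⌊eta * k⌋₊ := by
        rw [Nat.count_eq_card_filter_range]
        calc _ ≤ (Finset.range ⌊eta * k⌋₊).card := by
              refine Finset.card_le_card fun i hi => ?_
              rw [Finset.mem_filter, Finset.mem_range] at hi
              rw [Finset.mem_range]
              have h6 := hcon i hi.1 hi.2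
              refine Nat.lt_of_succ_le (Nat.le_floor ?_)
              push_cast
              linarith
          _ = _ := Finset.card_range _
      have h6 : (Nat.count bad k : ℝ) ≤ eta * k :=
        (Nat.cast_le.2 h5).trans (Nat.floor_le (by positivity))
      linarith
    have hstep := h3 (i + N) (k + N) (by omega)
    have hbN : b (i + N) ≤ b i := hanti (by omega)
    have hbi2 := h2 i hbi
    have hbC : b i ≤ C₁ * θ₁ ^ i := hC₁b i
    have h7 : θ₁ ^ i ≤ C₂ * θ₂ ^ (k + N) := by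
      have e : C₂ * θ₂ ^ (k + N) = θ₁ ^ (eta * k - 1) := by
        rw [hC₂, hθ₂, ← Real.rpow_natCast (θ₁ ^ eta), ← Real.rpow_mul hθ₁0.le,
          ← Real.rpow_add hθ₁0]
        congr 1
        push_cast
        ring
      rw [e, ← Real.rpow_natCast]
      exact Real.rpow_le_rpow_of_exponent_ge hθ₁0 hθ₁1.le hi
    have h8 : 0 ≤ b i := hb0 i
    have h9 : θ₂ ^ (k + N) = θ₃ ^ (k + N) * θ₃ ^ (k + N) := by rw [← mul_pow, hθ₃sq]
    have h10 := hD (k + N)
    have h11 : θ₃ ^ (k + N) ≤ 1 := pow_le_one₀ hθ₃0.le hθ₃1.le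
    have h12 : 0 < θ₃ ^ (k + N) := by positivity
    calc h (k + N) ≤ 2 * (b i / c) + K * (k + N : ℕ) * b i := by
          refine hstep.trans ?_
          have : K * ((k + N : ℕ) : ℝ) * b (i + N) ≤ K * ((k + N : ℕ) : ℝ) * b i := by gcongr
          linarith
      _ = (2 / c + K * (k + N : ℕ)) * b i := by ring
      _ ≤ (2 / c + K * (k + N : ℕ)) * (C₁ * (C₂ * θ₂ ^ (k + N))) := by
          have : b i ≤ C₁ * (C₂ * θ₂ ^ (k + N)) := hbC.trans (by gcongr)
          gcongr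
      _ = (2 / c * θ₃ ^ (k + N) + K * (((k + N : ℕ) : ℝ) * θ₃ ^ (k + N))) * C₁ * C₂
            * θ₃ ^ (k + N) := by
          rw [h9]; ring
      _ ≤ (2 / c * 1 + K * D) * C₁ * C₂ * θ₃ ^ (k + N) := by gcongr
      _ = _ := by ring
  obtain ⟨C₃, hC₃, hC₃h⟩ := bound_of_eventually hθ₃0 hhev
  refine ⟨max θ₁ θ₃, C₁ + C₃, lt_max_of_lt_left hθ₁0, max_lt hθ₁1 hθ₃1, by positivity,
    fun n => ⟨?_, ?_⟩⟩
  · refine (hC₃h n).trans ?_
    have : θ₃ ^ n ≤ max θ₁ θ₃ ^ n := by gcongr; exact le_max_right _ _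
    gcongr
    linarith
  · refine (hC₁b n).trans ?_
    have : θ₁ ^ n ≤ max θ₁ θ₃ ^ n := by gcongr; exact le_max_left _ _
    gcongr
    linarith

/-- from geometric decay along the levels to power decay -/
lemma power_decay {f : ℝ → ℝ} {s θ C K r₀ : ℝ} (hs0 : 0 < s) (hs1 : s < 1) (hθ0 : 0 < θ)
    (hθ1 : θ < 1) (hC : 0 ≤ C) (hK : 0 ≤ K) (hr₀ : 0 < r₀)
    (hf : ∀ n : ℕ, ∀ r, s ^ (n + 1) * r₀ ≤ r → r ≤ s ^ n * r₀ → f r ≤ K * f (s ^ n * r₀))
    (hdec : ∀ n : ℕ, f (s ^ n * r₀) ≤ C * θ ^ n) :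
    ∀ r, 0 < r → r ≤ r₀ →
      f r ≤ K * C * (s * r₀) ^ (-(Real.log θ / Real.log s)) * r ^ (Real.log θ / Real.log s) := by
  intro r hr hrr
  obtain ⟨n, hn1, hn2⟩ := exists_nat_pow_near_of_lt_one (x := r / r₀) (y := s) (by positivity)
    ((div_le_one hr₀).2 hrr) hs0 hs1
  rw [lt_div_iff₀ hr₀] at hn1
  rw [div_le_iff₀ hr₀] at hn2
  set β := Real.log θ / Real.log s with hβ
  have hlogs : Real.log s < 0 := Real.log_neg hs0 hs1
  have hlogθ : Real.log θ < 0 := Real.log_neg hθ0 hθ1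
  have hβ0 : 0 < β := div_pos_of_neg_of_neg hlogθ hlogs
  have hθs : θ = s ^ β := by
    rw [Real.rpow_def_of_pos hs0, hβ, mul_div_cancel₀ _ hlogs.ne, Real.exp_log hθ0]
  have h1 : θ ^ n ≤ (s * r₀) ^ (-β) * r ^ β := by
    have e : (s * r₀) ^ (-β) * r ^ β = (r / (s * r₀)) ^ β := by
      rw [Real.div_rpow hr.le (by positivity), Real.rpow_neg (by positivity)]
      field_simp
    rw [e, hθs, ← Real.rpow_natCast, ← Real.rpow_mul hs0.le, mul_comm β, Real.rpow_mul hs0.le,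
      Real.rpow_natCast]
    refine Real.rpow_le_rpow (by positivity) ?_ hβ0.le
    rw [le_div_iff₀ (by positivity)]
    calc s ^ n * (s * r₀) = s ^ (n + 1) * r₀ := by ring
      _ ≤ r := hn1.le
  calc f r ≤ K * f (s ^ n * r₀) := hf n r hn1.le hn2
    _ ≤ K * (C * θ ^ n) := by gcongr; exact hdec n
    _ ≤ K * (C * ((s * r₀) ^ (-β) * r ^ β)) := by gcongr
    _ = _ := by ring

end sequences

end Vale.Agent.P214.DIM
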