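import Vale.Agent.P214.DIM.Integral
import Vale.Agent.P214.CST.Main

/-!
# P214, block DIM: the optimal height

`hinf m ν x r` : infimum over the `m`-planes of the normalised height at `(x, r)`.
It is positive at singular points, controls the mass excess at points of integer density, and
satisfies a change of centre inequality.
-/

open Set Filter Topology MeasureTheory Metric
open scoped RealInnerProductSpace ENNReal NNReal

set_option linter.all false

namespace Vale.Agent.P214.DIM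

open Vale.Agent.P214.HS

variable {E : Type*} [NormedAddCommGroup E] [InnerProductSpace ℝ E] [FiniteDimensional ℝ E]
  [MeasurableSpace E] [BorelSpace E]

/-- the optimal height -/
noncomputable def hinf (m : ℕ) (ν : Measure E) (x : E) (r : ℝ) : ℝ :=
  ⨅ T : {T : Submodule ℝ E // Module.finrank ℝ T = m}, height m ν T.1 x r

section basic

variable {m : ℕ} {ν : Measure E} {x y : E} {r : ℝ}

lemma bdd_height (hr : 0 < r) :
    BddBelow (range fun T : {T : Submodule ℝ E // Module.finrank ℝ T = m} => height m ν T.1 x r) :=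
  ⟨0, by rintro _ ⟨T, rfl⟩; exact height_nonneg hr⟩

lemma hinf_le (hr : 0 < r) {T : Submodule ℝ E} (hT : Module.finrank ℝ T = m) :
    hinf m ν x r ≤ height m ν T x r := ciInf_le (bdd_height hr) ⟨T, hT⟩

lemma hinf_nonneg (hr : 0 < r) : 0 ≤ hinf m ν x r := Real.iInf_nonneg fun T => height_nonneg hr

lemma exists_lt_of_hinf_lt (hm : m ≤ Module.finrank ℝ E) {a : ℝ} (h : hinf m ν x r < a) :
    ∃ T : Submodule ℝ E, Module.finrank ℝ T = m ∧ height m ν T x r < a := by
  have hne : Nonempty {T : Submodule ℝ E // Module.finrank ℝ T = m} := by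
    obtain ⟨f, hf⟩ := exists_linearIndependent_of_le_finrank (R := ℝ) (M := E) hm
    exact ⟨⟨Submodule.span ℝ (range f), by rw [finrank_span_eq_card hf, Fintype.card_fin]⟩⟩
  obtain ⟨T, hT⟩ := exists_lt_of_ciInf_lt h
  exact ⟨T.1, T.2, hT⟩

lemma nonFlat_hinf (hr : 0 < r) : NonFlat m ν (hinf m ν x r) x r := fun T hT => hinf_le hr hT

lemma le_hinf (hm : m ≤ Module.finrank ℝ E) {a : ℝ}
    (h : ∀ T : Submodule ℝ E, Module.finrank ℝ T = m → a ≤ height m ν T x r) :
    a ≤ hinf m ν x r := by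
  by_contra hcon
  rw [not_le] at hcon
  obtain ⟨T, hT, hlt⟩ := exists_lt_of_hinf_lt hm hcon
  exact absurd (h T hT) (not_le.2 hlt)

/-- smaller radii -/
lemma height_radius [IsFiniteMeasure ν] {T : Submodule ℝ E} {s : ℝ} (hs : 0 < s) (hsr : s ≤ r) :
    height m ν T x s ≤ (r / s) ^ (m + 2) * height m ν T x r := by
  have hr : 0 < r := hs.trans_le hsr
  have h1 : wmass ν x (hsq T x) s ≤ wmass ν x (hsq T x) r := by
    unfold wmass
    refine integral_mono (integrable_cut_hsq hs x) (integrable_cut_hsq hr x) fun y => ?_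
    have h2 : cut x s y ≤ cut x r y := by
      unfold cut
      refine prof_anti ?_
      gcongr
    have h3 := hsq_nonneg T x y
    simp only
    gcongr
  unfold height
  rw [div_pow, div_mul_div_comm, mul_comm (r ^ (m + 2)), mul_div_mul_right _ _ (by positivity)]
  gcongr

end basic

variable {m : ℕ} {U : Set E} {V : IntegralVarifold m U}

lemma finrank_le_of_mem_spt (V : IntegralVarifold m U) {x : E} (hx : x ∈ V.spt) :
    m ≤ Module.finrank ℝ E := by
  have h1 : 0 < V.weight univ := hx.2 univ univ_mem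
  have h2 : NeBot (ae V.weight) := by
    rw [ae_neBot]
    intro h0
    rw [h0] at h1
    simp at h1
  have h3 : ∀ᵐ y ∂V.weight, IsApproxTangent m V.weight y (V.mult y) (V.tangent y) :=
    V.tangent_spec
  obtain ⟨y, hy⟩ := h3.exists
  rw [← hy.1]
  exact Submodule.finrank_le _

/-- a support point with vanishing optimal height is regular -/
theorem regular_of_hinf_zero (hU : IsOpen U) (hst : V.IsStationary) {x₁ x : E} {R₁ r : ℝ}
    (hR : closedBall x₁ R₁ ⊆ U) (hx : x ∈ V.spt) (hr : 0 < r)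
    (hb : closedBall x r ⊆ ball x₁ R₁) (h0 : hinf m (nu V x₁ R₁) x r = 0) : V.IsRegular x := by
  have hcg := cg_pos m
  have hm := finrank_le_of_mem_spt V hx
  set ν := nu V x₁ R₁ with hν
  set K₁ : ℝ := 2 * 4 ^ m / cg m with hK₁
  have hK₁0 : 0 < K₁ := by positivity
  have hseq : ∀ j : ℕ, ∃ T : Submodule ℝ E, Module.finrank ℝ T = m ∧
      height m ν T x r < 1 / ((j:ℝ) + 1) := fun j =>
    exists_lt_of_hinf_lt hm (by rw [h0]; positivity)
  choose T hT hTh using hseq
  obtain ⟨T₀, hT₀, φ, hφ, hlim⟩ := exists_limit_plane T hT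
  refine CST.regular_of_spt_subset hU V hst hx (W := ball x (r / 4))
    (ball_mem_nhds x (by positivity)) (isSmoothSubmanifold_aff (x := x) hT₀
      (isOpen_ball (x := x) (ε := r / 4))) ?_
  rintro y ⟨hy, hyb⟩
  refine ⟨?_, hyb⟩
  rw [mem_ball, dist_eq_norm] at hyb
  have h1 : Tendsto (fun j => ‖FV.co (T (φ j)) (y - x)‖ ^ 2) atTop
      (𝓝 (‖FV.co T₀ (y - x)‖ ^ 2)) := by
    have h2 : Tendsto (fun j => (y - x) - (T (φ j)).starProjection (y - x)) atTop
        (𝓝 ((y - x) - T₀.starProjection (y - x))) := by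
      refine tendsto_const_nhds.sub ?_
      exact ((ContinuousLinearMap.apply ℝ E (y - x)).continuous.tendsto _).comp hlim
    exact (h2.norm).pow 2
  have h3 : ∀ j, ‖FV.co (T (φ j)) (y - x)‖ ^ 2 ≤ K₁ * r ^ 2 * (1 / ((φ j : ℝ) + 1)) := by
    intro j
    refine (sup_height hst hR hr hb (T (φ j)) hy hyb.le).trans ?_
    gcongr
    exact (hTh (φ j)).le
  have h4 : Tendsto (fun j : ℕ => K₁ * r ^ 2 * ((1:ℝ) / ((φ j : ℝ) + 1))) atTop
      (𝓝 (K₁ * r ^ 2 * 0)) :=
    (tendsto_one_div_add_atTop_nhds_zero_nat.comp hφ.tendsto_atTop).const_mul _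
  rw [mul_zero] at h4
  have h5 : ‖FV.co T₀ (y - x)‖ ^ 2 ≤ 0 := le_of_tendsto_of_tendsto' h1 h4 h3
  have h6 : FV.co T₀ (y - x) = 0 := by
    have : ‖FV.co T₀ (y - x)‖ = 0 := by nlinarith [norm_nonneg (FV.co T₀ (y - x))]
    exact norm_eq_zero.1 this
  show y - x ∈ T₀
  have h7 := FV.star_add_co T₀ (y - x)
  rw [h6, add_zero] at h7
  rw [← h7]
  exact Submodule.starProjection_apply_mem _ _

lemma hinf_pos (hU : IsOpen U) (hst : V.IsStationary) {x₁ x : E} {R₁ r : ℝ}
    (hR : closedBall x₁ R₁ ⊆ U) (hx : x ∈ V.sing) (hr : 0 < r)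
    (hb : closedBall x r ⊆ ball x₁ R₁) : 0 < hinf m (nu V x₁ R₁) x r := by
  refine lt_of_le_of_ne (hinf_nonneg hr) fun h => hx.2 ?_
  exact regular_of_hinf_zero hU hst hR hx.1 hr hb h.symm

/-- **mass excess controlled by the optimal height** on pinched scales -/
theorem mass_le_hinf (m Q : ℕ) : ∃ ε C : ℝ, 0 < ε ∧ 0 < C ∧
    ∀ (U : Set E) (V : IntegralVarifold m U), V.IsStationary → ∀ (x₁ x : E) (R₁ r : ℝ),
      closedBall x₁ R₁ ⊆ U → x ∈ V.spt → 0 < r → closedBall x r ⊆ ball x₁ R₁ →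
      (∀ s, 0 < s → s ≤ r → cg m * Q ≤ ratio m (nu V x₁ R₁) x s ∧
        ratio m (nu V x₁ R₁) x s ≤ cg m * Q + ε) →
        ratio m (nu V x₁ R₁) x (r / 32) - cg m * Q ≤ C * hinf m (nu V x₁ R₁) x r := by
  obtain ⟨ε, C, hε, hC, H⟩ := mass_le_height (E := E) m Q
  refine ⟨ε, max C 1, hε, by positivity, ?_⟩
  intro U V hst x₁ x R₁ r hR hx hr hb hpinch
  have hm := finrank_le_of_mem_spt V hx
  have hC1 : 0 < max C 1 := by positivity
  rw [← div_le_iff₀' hC1]
  refine le_hinf hm fun T hT => ?_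
  have hh0 : 0 ≤ height m (nu V x₁ R₁) T x r := height_nonneg hr
  rw [div_le_iff₀' hC1]
  by_cases hh : height m (nu V x₁ R₁) T x r ≤ ε
  · have h1 := H U V hst x₁ x R₁ r hR hx hr hb hpinch T hT hh
    have h2 : C * height m (nu V x₁ R₁) T x r ≤ max C 1 * height m (nu V x₁ R₁) T x r := by
      gcongr
      exact le_max_left _ _
    linarith
  · rw [not_le] at hh
    have h1 := (hpinch (r / 32) (by positivity) (by linarith)).2
    have h2 : 1 * height m (nu V x₁ R₁) T x r ≤ max C 1 * height m (nu V x₁ R₁) T x r := by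
      gcongr
      exact le_max_right _ _
    linarith

/-- change of centre for the optimal height -/
lemma hinf_center {O : Set E} {ν : Measure E} {P : E → E →L[ℝ] E} [IsFiniteMeasure ν]
    (h : LocStat m O ν P) (hm : m ≤ Module.finrank ℝ E) {a M : ℝ}
    (ha : 0 < a) (hd : DensLow m O ν a) {x y : E} {r s : ℝ} (hr : 0 < r)
    (hball : closedBall x r ⊆ O) (hy : y ∈ ν.support) (hyx : ‖y - x‖ ≤ r / 4)
    (hM : ratio m ν x r ≤ M) (hs : 0 < s) (hsr : s ≤ r / 4) :
    hinf m ν y s ≤ (r / 4 / s) ^ (m + 2) * (4 ^ (m + 3) * (1 + 2 * 4 ^ m * M / a)) *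
      hinf m ν x r := by
  have hM0 : 0 ≤ M := (ratio_nonneg hr).trans hM
  set K := (r / 4 / s) ^ (m + 2) * (4 ^ (m + 3) * (1 + 2 * 4 ^ m * M / a)) with hK
  have hK0 : 0 < K := by positivity
  rw [← div_le_iff₀' hK0]
  refine le_hinf hm fun T hT => ?_
  rw [div_le_iff₀' hK0]
  calc hinf m ν y s ≤ height m ν T y s := hinf_le hs hT
    _ ≤ (r / 4 / s) ^ (m + 2) * height m ν T y (r / 4) := height_radius hs hsr
    _ ≤ (r / 4 / s) ^ (m + 2) * (4 ^ (m + 3) * (1 + 2 * 4 ^ m * M / a) * height m ν T x r) := by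
        gcongr
        exact height_center h ha hd hr hball hy hyx hM
    _ = K * height m ν T x r := by rw [hK]; ring

lemma etaNF_eq (m : ℕ) {ε : ℝ} (hε : 0 ≤ ε) (rho : ℝ) : etaNF m ε rho = ε * etaNF m 1 rho := by
  unfold etaNF
  rw [mul_min_of_nonneg _ _ hε]
  congr 1
  · ring
  · ring

end Vale.Agent.P214.DIM
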