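import Vale.Agent.P214.INT.MMain
import Vale.Agent.P214.BRG.Int
import Vale.Agent.P214.SUB.A
import Vale.Agent.P214.DIM.Asm
import Vale.Agent.P214.DIM.Cacc

/-!
# P214, block DIM: the mass excess is controlled by the height

At a support point of integer density `Q`, at a scale where `V` is close to a plane and the mass
ratio is close to `Q`, the mass ratio exceeds `Q` by at most a constant times the height.
-/

open Set Filter Topology MeasureTheory Metric
open scoped RealInnerProductSpace ENNReal NNReal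

set_option linter.all false

namespace Vale.Agent.P214.DIM

open Vale.Agent.P214.HS

variable {E : Type*} [NormedAddCommGroup E] [InnerProductSpace ℝ E] [FiniteDimensional ℝ E]
  [MeasurableSpace E] [BorelSpace E]

variable {m : ℕ} {U : Set E}

/-- the slab-cylinder around `x` -/
def box (T : Submodule ℝ E) (x : E) (r : ℝ) : Set E :=
  FV.slabSet T (ball (T.starProjection x) (r / 8)) (FV.co T x) (r / 8)

lemma mem_box {T : Submodule ℝ E} {x y : E} {r : ℝ} : y ∈ box T x r ↔
    ‖T.starProjection (y - x)‖ < r / 8 ∧ ‖FV.co T (y - x)‖ ≤ r / 8 := by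
  unfold box FV.slabSet
  rw [mem_setOf_eq, mem_ball, dist_eq_norm, map_sub, map_sub]

lemma measurableSet_box (T : Submodule ℝ E) (x : E) (r : ℝ) : MeasurableSet (box T x r) :=
  FV.measurableSet_slabSet isOpen_ball _ _

lemma box_subset (T : Submodule ℝ E) (x : E) {r : ℝ} (hr : 0 < r) : box T x r ⊆ ball x (r / 4) := by
  intro y hy
  rw [mem_box] at hy
  rw [mem_ball, dist_eq_norm]
  have h1 := FV.norm_sq_star_add_co T (y - x)
  have h2 : ‖T.starProjection (y - x)‖ ^ 2 < (r / 8) ^ 2 := by
    have := norm_nonneg (T.starProjection (y - x)); nlinarith [hy.1]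
  have h3 : ‖FV.co T (y - x)‖ ^ 2 ≤ (r / 8) ^ 2 := by
    have := norm_nonneg (FV.co T (y - x)); nlinarith [hy.2]
  nlinarith [norm_nonneg (y - x)]

lemma ball_subset_box (T : Submodule ℝ E) (x : E) {r s : ℝ} (hs : s ≤ r / 8) :
    ball x s ⊆ box T x r := by
  intro y hy
  rw [mem_ball, dist_eq_norm] at hy
  rw [mem_box]
  have h1 := FV.norm_star_le T (y - x)
  have h2 := FV.norm_co_le T (y - x)
  exact ⟨by linarith, by linarith⟩

variable {V : IntegralVarifold m U}

lemma nu_restrict_box (V : IntegralVarifold m U) {x₁ x : E} {R₁ r : ℝ} (hr : 0 < r)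
    (hb : closedBall x r ⊆ ball x₁ R₁) (T : Submodule ℝ E) :
    (nu V x₁ R₁).restrict (box T x r) = V.weight.restrict (box T x r) := by
  unfold nu
  rw [Measure.restrict_restrict (measurableSet_box _ _ _), inter_eq_left.2]
  exact (box_subset T x hr).trans ((ball_subset_closedBall.trans
    (closedBall_subset_closedBall (by linarith))).trans (hb.trans ball_subset_closedBall))

/-- the counting data of the cylinder around a flat point -/
theorem exists_int (hst : V.IsStationary) {x₁ x : E} {R₁ r : ℝ} (hR : closedBall x₁ R₁ ⊆ U)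
    (hr : 0 < r) (hb : closedBall x r ⊆ ball x₁ R₁) {T : Submodule ℝ E}
    (hT : Module.finrank ℝ T = m)
    (hflat : ∀ y ∈ V.spt, ‖y - x‖ ≤ r / 4 → ‖FV.co T (y - x)‖ ≤ r / 64) :
    ∃ (S : Set E) (θ : E → ℕ) (J : E → ℝ),
      INT.IntCyl m T (ball (T.starProjection x) (r / 8)) (r / 64 + ‖FV.co T x‖)
        ((nu V x₁ R₁).restrict (box T x r)) (fun y => proj (V.tangent y)) S θ J := by
  have hfin := V.finite_restrict hR
  have hls := V.locStat hst hR
  have hbox := box_subset T x hr
  have hboxO : box T x r ⊆ ball x₁ R₁ :=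
    hbox.trans ((ball_subset_closedBall.trans (closedBall_subset_closedBall (by linarith))).trans hb)
  have hheight : ∀ᵐ y ∂V.weight, y ∈ box T x r → ‖FV.co T (y - x)‖ ≤ r / 64 := by
    filter_upwards [V.ae_mem_spt] with y hy hyb
    have h1 := hbox hyb
    rw [mem_ball, dist_eq_norm] at h1
    exact hflat y hy h1.le
  have hC : FV.CylStat m T (ball (T.starProjection x) (r / 8)) (r / 64 + ‖FV.co T x‖)
      ((nu V x₁ R₁).restrict (box T x r)) (fun y => proj (V.tangent y)) := by
    have hfin' : IsFiniteMeasure (nu V x₁ R₁) := hfin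
    refine LocStat.cylStat (h' := r / 8) (hls : LocStat m (ball x₁ R₁) (nu V x₁ R₁) _) hT
      isOpen_ball (by positivity) (by linarith) hboxO ?_
    have h2 : ∀ᵐ y ∂(nu V x₁ R₁), y ∈ box T x r → ‖FV.co T (y - x)‖ ≤ r / 64 :=
      ae_restrict_of_ae hheight
    filter_upwards [h2] with y hy hyb
    have := hy hyb
    rwa [map_sub] at this
  rw [nu_restrict_box V hr hb T] at hC ⊢
  have hbase : (V.weight.restrict (box T x r)) (T.starProjection ⁻¹'
      (ball (T.starProjection x) (r / 8)))ᶜ = 0 := by
    rw [Measure.restrict_apply' (measurableSet_box _ _ _)]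
    have : (T.starProjection ⁻¹' (ball (T.starProjection x) (r / 8)))ᶜ ∩ box T x r = ∅ := by
      rw [eq_empty_iff_forall_notMem]
      rintro y ⟨h1, h2⟩
      exact h1 h2.1
    rw [this, measure_empty]
  have hac : V.weight.restrict (box T x r) ≪ (μH[m] : Measure E) := by
    refine Measure.restrict_le_self.absolutelyContinuous.trans ?_
    exact (withDensity_absolutelyContinuous _ _).trans Measure.restrict_le_self.absolutelyContinuous
  have htan : ∀ᵐ y ∂(V.weight.restrict (box T x r)), 1 ≤ V.mult y ∧ ∃ T' : Submodule ℝ E,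
      proj (V.tangent y) = proj T' ∧
      IsApproxTangent m (V.weight.restrict (box T x r)) y (V.mult y) T' := by
    filter_upwards [ae_restrict_of_ae V.ae_mem_carrier, ae_restrict_of_ae V.tangent_spec,
      ae_restrict_of_ae hheight, ae_restrict_mem (measurableSet_box T x r)] with y h1 h2 h3 h4
    refine ⟨V.mult_pos y h1, V.tangent y, rfl, ?_⟩
    refine SUB.tangent_local (measurableSet_box _ _ _) ?_ h2
    have h5 := h3 h4
    have h6 := (mem_box.1 h4).1
    have hcont1 : Continuous fun z : E => ‖T.starProjection (z - x)‖ := by fun_prop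
    have hcont2 : Continuous fun z : E => ‖FV.co T (z - x)‖ := by fun_prop
    have hopen : IsOpen {z : E | ‖T.starProjection (z - x)‖ < r / 8 ∧
        ‖FV.co T (z - x)‖ < r / 8} :=
      (isOpen_lt hcont1 continuous_const).inter (isOpen_lt hcont2 continuous_const)
    refine mem_of_superset (hopen.mem_nhds ⟨h6, by linarith⟩) fun z hz => ?_
    rw [mem_box]
    exact ⟨hz.1, hz.2.le⟩
  have hc : ∀ᵐ y ∂(V.weight.restrict (box T x r)), y ∈ V.carrier ∩ box T x r := by
    filter_upwards [ae_restrict_of_ae V.ae_mem_carrier, ae_restrict_mem (measurableSet_box T x r)]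
      with y h1 h2 using ⟨h1, h2⟩
  have hlow : ∀ S, MeasurableSet S → S ⊆ V.carrier ∩ box T x r →
      μH[m] S ≤ (V.weight.restrict (box T x r)) S := by
    intro S hSm hS
    rw [Measure.restrict_apply hSm, inter_eq_left.2 (hS.trans inter_subset_right), V.weight_eq]
    unfold weightOf
    rw [withDensity_apply _ hSm, Measure.restrict_restrict hSm,
      inter_eq_left.2 (hS.trans inter_subset_left)]
    calc μH[m] S = ∫⁻ _ in S, 1 ∂μH[m] := by rw [setLIntegral_one]
      _ ≤ _ := by
          refine setLIntegral_mono' hSm fun y hy => ?_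
          exact_mod_cast V.mult_pos y (hS hy).1
  obtain ⟨S, -, -, -, -, hI⟩ := BRG.exists_intCyl hC hbase hac htan hc hlow (A := univ)
    (Eventually.of_forall fun y => mem_univ y)
  exact ⟨S, _, _, hI⟩

lemma prof_anti {a b : ℝ} (hab : a ≤ b) : prof b ≤ prof a := by
  unfold prof
  have h1 : max (1 - b) 0 ≤ max (1 - a) 0 := max_le_max (by linarith) le_rfl
  exact pow_le_pow_left₀ (le_max_right _ _) h1 2

lemma prof_le_add {a b : ℝ} (ha : 0 ≤ a) (hab : a ≤ b) : prof a ≤ prof b + 2 * (b - a) := by
  unfold prof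
  have h1 : max (1 - a) 0 ≤ max (1 - b) 0 + (b - a) := by
    refine max_le ?_ ?_
    · have := le_max_left (1 - b) 0; linarith
    · have := le_max_right (1 - b) 0; linarith
  have h2 : max (1 - a) 0 ≤ 1 := max_le (by linarith) zero_le_one
  have h3 : 0 ≤ max (1 - b) 0 := le_max_right _ _
  have h4 : 0 ≤ max (1 - a) 0 := le_max_right _ _
  have h5 : max (1 - b) 0 ≤ max (1 - a) 0 := max_le_max (by linarith) le_rfl
  nlinarith

lemma star_star' (T : Submodule ℝ E) (y : E) :
    T.starProjection (T.starProjection y) = T.starProjection y := INT.star_star T y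

lemma cut_le_star (T : Submodule ℝ E) (x y : E) (s : ℝ) :
    cut x s y ≤ cut (T.starProjection x) s (T.starProjection y) := by
  unfold cut
  refine prof_anti ?_
  rw [← map_sub]
  have h1 := FV.norm_star_le T (y - x)
  have h2 : ‖T.starProjection (y - x)‖ ^ 2 ≤ ‖y - x‖ ^ 2 := pow_le_pow_left₀ (norm_nonneg _) h1 2
  gcongr

lemma star_le_cut (T : Submodule ℝ E) (x y : E) {s : ℝ} (hs : 0 < s) :
    cut (T.starProjection x) s (T.starProjection y) ≤
      cut x s y + 2 * ‖FV.co T (y - x)‖ ^ 2 / s ^ 2 := by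
  unfold cut
  rw [← map_sub]
  have h1 := FV.norm_sq_star_add_co T (y - x)
  have h2 : ‖T.starProjection (y - x)‖ ^ 2 / s ^ 2 ≤ ‖y - x‖ ^ 2 / s ^ 2 := by
    have := sq_nonneg ‖FV.co T (y - x)‖
    exact div_le_div_of_nonneg_right (by linarith) (by positivity)
  refine (prof_le_add (by positivity) h2).trans (le_of_eq ?_)
  rw [← sub_div, h1]
  ring

/-- the smoothed ball mass is at most the smoothed cylinder mass -/
lemma ratio_le_htot {ν : Measure E} [IsFiniteMeasure ν] {T : Submodule ℝ E} {x : E} {r s : ℝ}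
    (hs : 0 < s) (hsr : s ≤ r / 8) :
    ratio m ν x s ≤ INT.htot m T (ν.restrict (box T x r)) (T.starProjection x) s := by
  unfold ratio INT.htot
  rw [star_star']
  have h1 : ∫ y, cut x s y ∂ν = ∫ y in box T x r, cut x s y ∂ν := by
    symm
    refine setIntegral_eq_integral_of_forall_compl_eq_zero fun y hy => ?_
    refine cut_eq_zero hs ?_
    by_contra hcon
    rw [not_le] at hcon
    exact hy (ball_subset_box T x hsr (by rwa [mem_ball, dist_eq_norm]))
  rw [h1]
  have hc2 : Continuous fun y => cut (T.starProjection x) s (T.starProjection y) :=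
    (continuous_cut _ _).comp T.starProjection.continuous
  have hi1 : Integrable (fun y => cut x s y) (ν.restrict (box T x r)) :=
    (integrable_of_ball (x := x) (continuous_cut x s) hs fun y hy => cut_eq_zero hs hy).restrict
  have hi2 : Integrable (fun y => cut (T.starProjection x) s (T.starProjection y))
      (ν.restrict (box T x r)) := by
    refine (integrable_const (1:ℝ)).mono' hc2.aestronglyMeasurable (Eventually.of_forall fun y => ?_)
    rw [Real.norm_of_nonneg (cut_nonneg _ _ _)]
    exact cut_le_one _ _ _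
  have h2 := integral_mono hi1 hi2 (fun y => cut_le_star T x y s)
  gcongr

/-- the smoothed cylinder mass is at most the smoothed ball mass up to the height -/
lemma htot_le_ratio {ν : Measure E} [IsFiniteMeasure ν] {T : Submodule ℝ E} {x : E} {r s K : ℝ}
    (hr : 0 < r) (hs : 0 < s) (hK : 0 ≤ K)
    (hht : ∀ᵐ y ∂ν, y ∈ box T x r → ‖FV.co T (y - x)‖ ^ 2 ≤ K) :
    INT.htot m T (ν.restrict (box T x r)) (T.starProjection x) s ≤
      ratio m ν x s + 2 * K / s ^ 2 * ν.real (closedBall x (r / 2)) / s ^ m := by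
  unfold ratio INT.htot
  rw [star_star']
  have hc2 : Continuous fun y => cut (T.starProjection x) s (T.starProjection y) :=
    (continuous_cut _ _).comp T.starProjection.continuous
  have hi0 : Integrable (fun y => cut x s y) ν :=
    integrable_of_ball (x := x) (continuous_cut x s) hs fun y hy => cut_eq_zero hs hy
  have hi2 : Integrable (fun y => cut (T.starProjection x) s (T.starProjection y))
      (ν.restrict (box T x r)) := by
    refine (integrable_const (1:ℝ)).mono' hc2.aestronglyMeasurable (Eventually.of_forall fun y => ?_)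
    rw [Real.norm_of_nonneg (cut_nonneg _ _ _)]
    exact cut_le_one _ _ _
  have h2 : ∫ y in box T x r, cut (T.starProjection x) s (T.starProjection y) ∂ν
      ≤ ∫ y in box T x r, (cut x s y + 2 * K / s ^ 2) ∂ν := by
    refine integral_mono_ae hi2 (hi0.restrict.add (integrable_const _)) ?_
    rw [Filter.EventuallyLE, ae_restrict_iff' (measurableSet_box _ _ _)]
    filter_upwards [hht] with y hy hyb
    have h3 := hy hyb
    refine (star_le_cut T x y hs).trans ?_
    gcongr
  rw [integral_add hi0.restrict (integrable_const _), setIntegral_const, smul_eq_mul] at h2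
  have h3 : ∫ y in box T x r, cut x s y ∂ν ≤ ∫ y, cut x s y ∂ν :=
    setIntegral_le_integral hi0 (Eventually.of_forall fun y => cut_nonneg _ _ _)
  have h4 : ν.real (box T x r) ≤ ν.real (closedBall x (r / 2)) :=
    measureReal_mono ((box_subset T x hr).trans (ball_subset_closedBall.trans
      (closedBall_subset_closedBall (by linarith))))
  rw [← add_div]
  gcongr
  calc _ ≤ _ := h2
    _ ≤ (∫ y, cut x s y ∂ν) + ν.real (closedBall x (r / 2)) * (2 * K / s ^ 2) := by gcongr
    _ = _ := by ring

/-- **Mass excess controlled by the height.** -/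
theorem mass_le_height (m Q : ℕ) : ∃ ε C : ℝ, 0 < ε ∧ 0 < C ∧
    ∀ (U : Set E) (V : IntegralVarifold m U), V.IsStationary → ∀ (x₁ x : E) (R₁ r : ℝ),
      closedBall x₁ R₁ ⊆ U → x ∈ V.spt → 0 < r → closedBall x r ⊆ ball x₁ R₁ →
      (∀ s, 0 < s → s ≤ r → cg m * Q ≤ ratio m (nu V x₁ R₁) x s ∧
        ratio m (nu V x₁ R₁) x s ≤ cg m * Q + ε) →
      ∀ T : Submodule ℝ E, Module.finrank ℝ T = m → height m (nu V x₁ R₁) T x r ≤ ε →
        ratio m (nu V x₁ R₁) x (r / 32) ≤ cg m * Q + C * height m (nu V x₁ R₁) T x r := by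
  obtain ⟨δ, C₀, hδ, hC₀, hmain⟩ := INT.plane_approx_main (E := E) m Q
  have hcg := cg_pos m
  set K₁ : ℝ := 2 * 4 ^ m / cg m with hK₁
  have hK₁0 : 0 < K₁ := by positivity
  set K₂ : ℝ := 2 * K₁ * 256 * (2 * (cg m * Q + 1)) * 16 ^ m with hK₂
  have hK₂0 : 0 < K₂ := by positivity
  set ε : ℝ := min (min 1 (1 / (4096 * K₁))) (min (cg m / (3 * (1 + K₂))) (δ / (512 * 8 ^ m)))
    with hε
  have hε0 : 0 < ε := lt_min (lt_min one_pos (by positivity)) (lt_min (by positivity)
    (by positivity))
  have hε1 : ε ≤ 1 := (min_le_left _ _).trans (min_le_left _ _)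
  have hε2 : ε ≤ 1 / (4096 * K₁) := (min_le_left _ _).trans (min_le_right _ _)
  have hε3 : ε ≤ cg m / (3 * (1 + K₂)) := (min_le_right _ _).trans (min_le_left _ _)
  have hε4 : ε ≤ δ / (512 * 8 ^ m) := (min_le_right _ _).trans (min_le_right _ _)
  refine ⟨ε, C₀ * 512 * 32 ^ m, hε0, by positivity, ?_⟩
  intro U V hst x₁ x R₁ r hR hx hr hb hpinch T hT hh
  set ν := nu V x₁ R₁ with hν
  have hfin : IsFiniteMeasure ν := V.finite_restrict hR
  have hls : LocStat m (ball x₁ R₁) ν (fun y => proj (V.tangent y)) := V.locStat hst hR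
  have hdl : DensLow m (ball x₁ R₁) ν (cg m) := V.densLow (x := x₁) (R := R₁)
  set H := height m ν T x r with hH
  have hH0 : 0 ≤ H := height_nonneg hr
  -- sup bound of the height
  have hsup : ∀ y ∈ V.spt, ‖y - x‖ ≤ r / 4 → ‖FV.co T (y - x)‖ ^ 2 ≤ K₁ * r ^ 2 * H := by
    intro y hy hyx
    have hyO : y ∈ ball x₁ R₁ := hb (by rw [mem_closedBall, dist_eq_norm]; linarith)
    have h1 := hsq_le_height (T := T) hls hdl hr hb (V.mem_support hy hyO) hyx
    have e : hsq T x y = ‖FV.co T (y - x)‖ ^ 2 := by unfold hsq; rw [FV.co_eq]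
    rw [e] at h1
    have h2 : K₁ * r ^ 2 * H = (2 * 4 ^ m * r ^ 2 * H) / cg m := by rw [hK₁]; ring
    rw [h2, le_div_iff₀ hcg]
    linarith
  have hsup2 : K₁ * r ^ 2 * H ≤ (r / 64) ^ 2 := by
    calc K₁ * r ^ 2 * H ≤ K₁ * r ^ 2 * (1 / (4096 * K₁)) := by
          gcongr
          exact hh.trans hε2
      _ = (r / 64) ^ 2 := by field_simp; norm_num
  have hflat : ∀ y ∈ V.spt, ‖y - x‖ ≤ r / 4 → ‖FV.co T (y - x)‖ ≤ r / 64 := by
    intro y hy hyx
    have h1 := (hsup y hy hyx).trans hsup2
    exact (pow_le_pow_iff_left₀ (norm_nonneg _) (by positivity) two_ne_zero).1 h1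
  obtain ⟨S, θ, J, hI⟩ := exists_int hst hR hr hb hT hflat
  rw [← hν] at hI
  set νc := ν.restrict (box T x r) with hνc
  set z := T.starProjection x with hz
  have hzT : z ∈ T := Submodule.starProjection_apply_mem _ _
  have hzz : T.starProjection z = z := star_star' T x
  -- total mass
  have hmass : ν.real (closedBall x (r / 2)) ≤ 2 * (cg m * Q + 1) * r ^ m := by
    have h1 := mass_half_le (m := m) (ν := ν) (x := x) hr
    have h2 := (hpinch r hr le_rfl).2
    have h3 : r ^ m * ratio m ν x r ≤ r ^ m * (cg m * Q + 1) := by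
      gcongr
      linarith
    have h4 : 0 ≤ r ^ m * (cg m * Q + 1) := by positivity
    linarith
  have hht : ∀ᵐ y ∂ν, y ∈ box T x r → ‖FV.co T (y - x)‖ ^ 2 ≤ K₁ * r ^ 2 * H := by
    have h1 : ∀ᵐ y ∂ν, y ∈ V.spt := ae_restrict_of_ae V.ae_mem_spt
    filter_upwards [h1] with y hy hyb
    have h2 := box_subset T x hr hyb
    rw [mem_ball, dist_eq_norm] at h2
    exact hsup y hy h2.le
  -- near
  have hnear : |INT.htot m T νc z (2 * (r / 32)) / cg m - Q| ≤ 1 / 3 := by
    have e : 2 * (r / 32) = r / 16 := by ring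
    rw [e]
    have h1 := ratio_le_htot (m := m) (ν := ν) (T := T) (x := x) (r := r) (s := r / 16)
      (by positivity) (by linarith)
    have h2 := htot_le_ratio (m := m) (ν := ν) (T := T) (x := x) (r := r) (s := r / 16)
      (K := K₁ * r ^ 2 * H) hr (by positivity) (by positivity) hht
    obtain ⟨h3, h4⟩ := hpinch (r / 16) (by positivity) (by linarith)
    have h5 : 2 * (K₁ * r ^ 2 * H) / (r / 16) ^ 2 * ν.real (closedBall x (r / 2)) / (r / 16) ^ m
        ≤ K₂ * ε := by
      calc 2 * (K₁ * r ^ 2 * H) / (r / 16) ^ 2 * ν.real (closedBall x (r / 2)) / (r / 16) ^ m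
          ≤ 2 * (K₁ * r ^ 2 * ε) / (r / 16) ^ 2 * (2 * (cg m * Q + 1) * r ^ m)
              / (r / 16) ^ m := by gcongr
        _ = K₂ * ε := by rw [hK₂, div_pow r 16 m]; field_simp; ring
    rw [abs_le]
    have h6 : ε * (1 + K₂) ≤ cg m / 3 := by
      rw [le_div_iff₀ (by positivity)] at hε3
      linarith
    constructor
    · rw [le_sub_iff_add_le, le_div_iff₀ hcg]
      nlinarith
    · rw [sub_le_iff_le_add, div_le_iff₀ hcg]
      nlinarith
  -- tilt
  have htilt : ∀ A : Set E, MeasurableSet A → ∫ y in A, INT.tilt (fun y => proj (V.tangent y)) T y ^ 2 ∂νc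
      ≤ 512 * r ^ m * H := by
    intro A hA
    have h1 := tiltsq_le_height hls hr hb hT
    have hint := hls.integrableOn_tiltsq T.starProjection (closedBall x (r / 4))
    rw [hνc, Measure.restrict_restrict hA]
    refine le_trans ?_ h1
    refine setIntegral_mono_set hint (Eventually.of_forall fun y => by
      simp only [Pi.zero_apply]; positivity) (Eventually.of_forall ?_)
    exact inter_subset_right.trans ((box_subset T x hr).trans ball_subset_closedBall)
  have hmcyl : ∀ s, MeasurableSet (INT.cyl T z s) := fun s =>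
    (isOpen_ball.preimage T.starProjection.continuous).measurableSet
  have hwin : INT.Win m Q δ T (ball z (r / 8)) (r / 64 + ‖FV.co T x‖) νc
      (fun y => proj (V.tangent y)) S θ J z (r / 32) := by
    refine ⟨hI, hzT, by positivity, ?_, hnear, ?_⟩
    · unfold INT.cyl
      rw [hzz]
      exact preimage_mono (ball_subset_ball (by linarith))
    · unfold INT.exc
      rw [div_le_iff₀ (by positivity)]
      refine (htilt _ (hmcyl _)).trans ?_
      calc 512 * r ^ m * H ≤ 512 * r ^ m * (δ / (512 * 8 ^ m)) := by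
            gcongr
            exact hh.trans hε4
        _ = δ * (4 * (r / 32)) ^ m := by
            have : 4 * (r / 32) = r / 8 := by ring
            rw [this, div_pow]
            field_simp
  have hgm : Measurable (cut z (r / 32)) := (continuous_cut _ _).measurable
  have hkey := hmain T _ _ νc _ S θ J z (r / 32) hwin 1 (cut z (r / 32)) hgm (fun y => by
    rw [abs_of_nonneg (cut_nonneg _ _ _)]; exact cut_le_one _ _ _)
  have hl : ∫ y in INT.cyl T z (r / 32), cut z (r / 32) (T.starProjection y) ∂νc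
      = ∫ y, cut z (r / 32) (T.starProjection y) ∂νc := by
    refine setIntegral_eq_integral_of_forall_compl_eq_zero fun y hy => ?_
    refine cut_eq_zero (by positivity) ?_
    by_contra hcon
    rw [not_le] at hcon
    refine hy ?_
    show T.starProjection y ∈ ball (T.starProjection z) (r / 32)
    rw [hzz, mem_ball, dist_eq_norm]
    exact hcon
  have hpl : ∫ y in (T : Set E) ∩ ball z (r / 32), cut z (r / 32) y ∂μH[m] = cg m * (r / 32) ^ m := by
    rw [← INT.integral_cut_plane hT hzT (by positivity : 0 < r / 32)]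
    rw [inter_comm, ← Measure.restrict_restrict measurableSet_ball]
    refine setIntegral_eq_integral_of_forall_compl_eq_zero fun y hy => ?_
    refine cut_eq_zero (by positivity) ?_
    by_contra hcon
    rw [not_le] at hcon
    exact hy (by rw [mem_ball, dist_eq_norm]; exact hcon)
  rw [hl, hpl] at hkey
  have h7 := (abs_le.1 hkey).2
  have h8 := ratio_le_htot (m := m) (ν := ν) (T := T) (x := x) (r := r) (s := r / 32)
      (by positivity) (by linarith)
  have h9 : INT.htot m T νc z (r / 32) * (r / 32) ^ m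
      = ∫ y, cut z (r / 32) (T.starProjection y) ∂νc := by
    unfold INT.htot
    rw [hzz]
    field_simp
  have h10 := htilt (INT.cyl T z (2 * (r / 32))) (hmcyl _)
  have h11 : INT.htot m T νc z (r / 32) * (r / 32) ^ m ≤ (cg m * Q + C₀ * 512 * 32 ^ m * H)
      * (r / 32) ^ m := by
    rw [h9]
    have h12 : C₀ * 1 * ∫ y in INT.cyl T z (2 * (r / 32)),
        INT.tilt (fun y => proj (V.tangent y)) T y ^ 2 ∂νc ≤ C₀ * 1 * (512 * r ^ m * H) := by
      gcongr
    have h13 : C₀ * 1 * (512 * r ^ m * H) = C₀ * 512 * 32 ^ m * H * (r / 32) ^ m := by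
      rw [div_pow]; field_simp
    nlinarith
  have h14 := le_of_mul_le_mul_right h11 (by positivity)
  exact h8.trans h14

end Vale.Agent.P214.DIM
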