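import Vale.Agent.P214.DIM.Decay

/-!
# P214, block DIM: power decay off a set of dimension `m - 1`

`badK` : levels at which the mass drop dominates the optimal height a fixed number of levels below.
`flatGood_badK` : flatness at the other levels.  `decay_of_many_bad` : a positive lower density of
such levels gives power decay of the optimal height and of the mass excess.
-/

open Set Filter Topology MeasureTheory Metric
open scoped RealInnerProductSpace ENNReal NNReal

set_option linter.all false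

namespace Vale.Agent.P214.DIM

open Vale.Agent.P214.HS

variable {E : Type*} [NormedAddCommGroup E] [InnerProductSpace ℝ E] [FiniteDimensional ℝ E]
  [MeasurableSpace E] [BorelSpace E]

/-- slow growth of the optimal height -/
lemma hinf_grow {m : ℕ} {O : Set E} {ν : Measure E} {P : E → E →L[ℝ] E} [IsFiniteMeasure ν]
    (h : LocStat m O ν P) (hm : m ≤ Module.finrank ℝ E) {x : E} {r₁ r₂ : ℝ} (h1 : 0 < r₁)
    (h12 : r₁ ≤ r₂) (hball : closedBall x r₂ ⊆ O) :
    hinf m ν x r₁ ≤ 2 * hinf m ν x r₂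
      + Real.log (r₂ / r₁) * (ratio m ν x r₂ - ratio m ν x r₁) := by
  set D := Real.log (r₂ / r₁) * (ratio m ν x r₂ - ratio m ν x r₁) with hD
  have hD0 : 0 ≤ D := by
    refine mul_nonneg (Real.log_nonneg (by rw [le_div_iff₀ h1]; linarith)) ?_
    have := h.ratio_mono h1 h12 hball
    linarith
  have key : (hinf m ν x r₁ - D) / 2 ≤ hinf m ν x r₂ := by
    refine le_hinf hm fun T hT => ?_
    have h2 := sqrt_height_le (T := T) h h1 h12 hball
    rw [← hD] at h2
    have h3 := hinf_le (m := m) (ν := ν) (x := x) h1 hT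
    have h4 : 0 ≤ height m ν T x r₁ := height_nonneg h1
    have h5 : 0 ≤ height m ν T x r₂ := height_nonneg (h1.trans_le h12)
    have e1 := Real.sq_sqrt h4
    have e2 := Real.sq_sqrt h5
    have e3 := Real.sq_sqrt hD0
    have h6 := Real.sqrt_nonneg (height m ν T x r₁)
    have h7 := Real.sqrt_nonneg (height m ν T x r₂)
    have h8 := Real.sqrt_nonneg D
    have h9 : √(height m ν T x r₁) ^ 2 ≤ (√(height m ν T x r₂) + √D / 2) ^ 2 :=
      pow_le_pow_left₀ h6 h2 2
    nlinarith [sq_nonneg (√(height m ν T x r₂) - √D / 2)]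
  linarith

/-- optimal height at comparable radii -/
lemma le_mul_of_le_hinf {m : ℕ} {ν : Measure E} [IsFiniteMeasure ν] {x : E} {r s a : ℝ}
    (hmE : m ≤ Module.finrank ℝ E) (hK : 1 ≤ (1 / a) ^ (m + 2)) (hr : 0 < r) (hrs : r ≤ s)
    (h : s / r ≤ 1 / a) : hinf m ν x r ≤ (1 / a) ^ (m + 2) * hinf m ν x s := by
  have hs : 0 < s := hr.trans_le hrs
  have h0 : 0 < (1 / a) ^ (m + 2) := by linarith
  rw [← div_le_iff₀' h0]
  refine le_hinf hmE fun T hT => ?_
  rw [div_le_iff₀' h0]
  calc hinf m ν x r ≤ height m ν T x r := hinf_le hr hT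
    _ ≤ (s / r) ^ (m + 2) * height m ν T x s := height_radius hr hrs
    _ ≤ (1 / a) ^ (m + 2) * height m ν T x s := by
        have h5 : 0 ≤ height m ν T x s := height_nonneg hs
        have h6 : 0 ≤ s / r := by positivity
        gcongr

variable {m : ℕ} {U : Set E} {V : IntegralVarifold m U} {x₁ x : E} {R δ r₀ : ℝ} {Q : ℕ}

lemma stratum_ball (hr₀ : 0 < r₀) (hrR : 1024 * r₀ ≤ R)
    (hx : x ∈ stratum V x₁ R Q δ (512 * r₀)) : closedBall x (512 * r₀) ⊆ ball x₁ R := by
  have := mem_ball.1 hx.2.1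
  exact closedBall_subset_ball' (by linarith)

lemma stratum_supp (hr₀ : 0 < r₀) (hrR : 1024 * r₀ ≤ R)
    (hx : x ∈ stratum V x₁ R Q δ (512 * r₀)) : x ∈ (nu V x₁ R).support :=
  V.mem_support hx.1.1 (ball_subset_ball (by linarith) hx.2.1)

lemma stratum_ratio (hst : V.IsStationary) (hR : closedBall x₁ R ⊆ U) (hr₀ : 0 < r₀)
    (hrR : 1024 * r₀ ≤ R) (hx : x ∈ stratum V x₁ R Q δ (512 * r₀)) {r : ℝ} (hr : 0 < r)
    (hr2 : r ≤ 512 * r₀) :
    cg m * Q ≤ ratio m (nu V x₁ R) x r ∧ ratio m (nu V x₁ R) x r ≤ cg m * Q + δ := by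
  have hls := V.locStat hst hR
  have hfin := V.finite_restrict hR
  refine ⟨?_, hx.2.2.2 r hr hr2⟩
  have h2 := hls.le_ratio hr ((closedBall_subset_closedBall hr2).trans (stratum_ball hr₀ hrR hx))
  rw [V.theta_restrict (ball_subset_ball (by linarith) hx.2.1), hx.2.2.1] at h2
  exact h2

/-- levels where the mass drop dominates the optimal height `N` levels below -/
def badK (V : IntegralVarifold m U) (x₁ : E) (R rho r₀ c : ℝ) (N : ℕ) (x : E) (i : ℕ) : Prop :=
  c * hinf m (nu V x₁ R) x (64 * lev rho r₀ (i + N)) <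
    ratio m (nu V x₁ R) x (512 * lev rho r₀ i) - ratio m (nu V x₁ R) x (128 * lev rho r₀ i)

lemma lev_add (rho r₀ : ℝ) (i n : ℕ) : lev rho r₀ (i + n) = (6 * rho) ^ n * lev rho r₀ i := by
  unfold lev
  rw [pow_add]
  ring

/-- **flatness at the levels which are not bad** -/
theorem flatGood_badK (hm : 1 ≤ m) (Q : ℕ) {rho : ℝ} (h0 : 0 < rho) (h1 : 6 * rho < 1) {N : ℕ}
    (hN : (6 * rho) ^ N ≤ 1 / 4) :
    ∃ c > 0, ∀ (U : Set E) (V : IntegralVarifold m U), IsOpen U → V.IsStationary →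
      ∀ (x₁ : E) (R : ℝ), closedBall x₁ R ⊆ U → ∀ δ ≤ 1, ∀ r₀ : ℝ, 0 < r₀ → 1024 * r₀ ≤ R →
        FlatGood (m - 1) rho r₀ (stratum V x₁ R Q δ (512 * r₀)) (badK V x₁ R rho r₀ c N) := by
  have hcg := cg_pos m
  set M : ℝ := cg m * Q + 1 with hM
  have hM0 : 0 < M := by positivity
  set K : ℝ := (1 / 4 / (6 * rho) ^ N) ^ (m + 2) * (4 ^ (m + 3) * (1 + 2 * 4 ^ m * M / cg m))
    with hK
  have hK0 : 0 < K := by positivity
  have he : 0 < etaNF m 1 (rho / 32) := etaNF_pos hm one_pos (by positivity)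
  refine ⟨etaNF m 1 (rho / 32) / K, by positivity, ?_⟩
  intro U V hU hst x₁ R hR δ hδ r₀ hr₀ hrR x hx i hbx
  have hls := V.locStat hst hR
  have hfin := V.finite_restrict hR
  have hdl := V.densLow (x := x₁) (R := R)
  set ν := nu V x₁ R with hν
  have hν' : ν = V.weight.restrict (closedBall x₁ R) := rfl
  rw [← hν'] at hls hdl hfin
  have hl0 : 0 < lev rho r₀ i := lev_pos h0 hr₀ i
  have hl1 : lev rho r₀ i ≤ r₀ := lev_le h0 h1 hr₀ i
  have hmE := finrank_le_of_mem_spt V hx.1.1
  have hbx0 := stratum_ball hr₀ hrR hx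
  have hball64 : closedBall x (64 * lev rho r₀ i) ⊆ ball x₁ R :=
    (closedBall_subset_closedBall (by linarith)).trans hbx0
  set ε := hinf m ν x (64 * lev rho r₀ i) with hε
  have hε0 : 0 < ε := hinf_pos hU hst hR hx.1 (by positivity) hball64
  have hlN : lev rho r₀ (i + N) = (6 * rho) ^ N * lev rho r₀ i := lev_add _ _ _ _
  have hlN0 : 0 < lev rho r₀ (i + N) := lev_pos h0 hr₀ _
  -- small mass drop at the good points
  have hdrop : ∀ y ∈ stratum V x₁ R Q δ (512 * r₀), ¬ badK V x₁ R rho r₀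
      (etaNF m 1 (rho / 32) / K) N y i → dist y x ≤ 2 * lev rho r₀ i →
      ratio m ν y (8 * (64 * lev rho r₀ i)) - ratio m ν y (2 * (64 * lev rho r₀ i))
        ≤ etaNF m ε (rho / 32) := by
    intro y hy hby hyx
    unfold badK at hby
    rw [not_lt] at hby
    have h2 := hinf_center (M := M) (x := x) (y := y) (r := 64 * lev rho r₀ i)
      (s := 64 * lev rho r₀ (i + N)) hls hmE hcg hdl (by positivity) hball64
      (stratum_supp hr₀ hrR hy) (by rw [← dist_eq_norm]; linarith)
      ((stratum_ratio hst hR hr₀ hrR hx (by positivity) (by linarith)).2.trans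
        (by rw [hM]; linarith)) (by positivity) (by rw [hlN]; nlinarith)
    have e1 : 64 * lev rho r₀ i / 4 / (64 * lev rho r₀ (i + N)) = 1 / 4 / (6 * rho) ^ N := by
      rw [hlN]; field_simp
    rw [e1, ← hK, ← hε] at h2
    have e2 : 8 * (64 * lev rho r₀ i) = 512 * lev rho r₀ i := by ring
    have e3 : 2 * (64 * lev rho r₀ i) = 128 * lev rho r₀ i := by ring
    rw [e2, e3]
    calc _ ≤ etaNF m 1 (rho / 32) / K * hinf m ν y (64 * lev rho r₀ (i + N)) := hby
      _ ≤ etaNF m 1 (rho / 32) / K * (K * ε) := by gcongr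
      _ = ε * etaNF m 1 (rho / 32) := by field_simp
      _ = etaNF m ε (rho / 32) := (etaNF_eq m hε0.le _).symm
  set A' : Set E := {y | y ∈ stratum V x₁ R Q δ (512 * r₀) ∧ ¬ badK V x₁ R rho r₀
      (etaNF m 1 (rho / 32) / K) N y i ∧ dist y x ≤ 2 * lev rho r₀ i} with hA'
  have hins : ∀ y ∈ insert x A', y ∈ A' := by
    rintro y (rfl | hy)
    · exact ⟨hx, hbx, by rw [dist_self]; positivity⟩
    · exact hy
  have key : FlatPt (m - 1) (rho / 32) (64 * lev rho r₀ i) A' x := by
    refine flatPt_of_nonFlat hls hm (by positivity) hε0 (by positivity) ?_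
      (nonFlat_hinf (by positivity)) ?_
    · intro y hy _
      exact (closedBall_subset_closedBall (by linarith)).trans
        (stratum_ball hr₀ hrR (hins y hy).1)
    · intro y hy _
      obtain ⟨h2, h3, h4⟩ := hins y hy
      exact hdrop y h2 h3 h4
  refine key.shrink (by linarith) (le_of_eq (by ring)) ?_
  rintro y ⟨hy, hby⟩ hyx
  exact ⟨hy, hby, hyx⟩

/-- **power decay from a positive lower density of bad levels** -/
theorem decay_of_many_bad (m Q : ℕ) {rho : ℝ} (h0 : 0 < rho) (h1 : 6 * rho < 1) {N : ℕ}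
    (hN1 : 1 ≤ N) (hN : (6 * rho) ^ N ≤ 1 / 256) {c : ℝ} (hc : 0 < c) :
    ∃ δ₁ > 0, ∀ (U : Set E) (V : IntegralVarifold m U), IsOpen U → V.IsStationary →
      ∀ (x₁ : E) (R : ℝ), closedBall x₁ R ⊆ U → ∀ δ ≤ δ₁, ∀ r₀ : ℝ, 0 < r₀ → 1024 * r₀ ≤ R →
        ∀ x ∈ stratum V x₁ R Q δ (512 * r₀), ∀ eta : ℝ, 0 < eta →
          x ∉ fewBad eta (stratum V x₁ R Q δ (512 * r₀)) (badK V x₁ R rho r₀ c N) →
          ∃ A β : ℝ, 0 ≤ A ∧ 0 < β ∧ ∀ r, 0 < r → r ≤ 64 * r₀ →
            hinf m (nu V x₁ R) x r ≤ A * r ^ β ∧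
            ratio m (nu V x₁ R) x r - cg m * Q ≤ A * r ^ β := by
  have hcg := cg_pos m
  obtain ⟨ε, C₁, hε, hC₁, hMB⟩ := mass_le_hinf (E := E) m Q
  refine ⟨ε, hε, ?_⟩
  intro U V hU hst x₁ R hR δ hδ r₀ hr₀ hrR x hx eta heta hnot
  have hls := V.locStat hst hR
  have hfin := V.finite_restrict hR
  set ν := nu V x₁ R with hν
  have hν' : ν = V.weight.restrict (closedBall x₁ R) := rfl
  rw [← hν'] at hls hfin
  have hmE := finrank_le_of_mem_spt V hx.1.1
  have hbx0 := stratum_ball hr₀ hrR hx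
  have hl0 : ∀ i, 0 < lev rho r₀ i := fun i => lev_pos h0 hr₀ i
  have hl1 : ∀ i, lev rho r₀ i ≤ r₀ := fun i => lev_le h0 h1 hr₀ i
  have hrat : ∀ r, 0 < r → r ≤ 512 * r₀ → cg m * Q ≤ ratio m ν x r ∧
      ratio m ν x r ≤ cg m * Q + δ := fun r hr hr2 => stratum_ratio hst hR hr₀ hrR hx hr hr2
  have hmono : ∀ r s, 0 < r → r ≤ s → s ≤ 512 * r₀ → ratio m ν x r ≤ ratio m ν x s :=
    fun r s hr hrs hs => hls.ratio_mono hr hrs ((closedBall_subset_closedBall hs).trans hbx0)
  have hnb : ∀ r, r ≤ 512 * r₀ → closedBall x r ⊆ ball x₁ R := fun r hr =>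
    (closedBall_subset_closedBall hr).trans hbx0
  set b : ℕ → ℝ := fun i => ratio m ν x (512 * lev rho r₀ i) - cg m * Q with hb
  set h : ℕ → ℝ := fun i => hinf m ν x (64 * lev rho r₀ i) with hh
  have hb0 : ∀ i, 0 ≤ b i := fun i => by
    have := (hrat (512 * lev rho r₀ i) (by have := hl0 i; positivity) (by linarith [hl1 i])).1
    rw [hb]; simp only; linarith
  have hanti : Antitone b := by
    intro i j hij
    have h2 := lev_anti h0 h1 hr₀ hij
    have h3 := hmono (512 * lev rho r₀ j) (512 * lev rho r₀ i) (by have := hl0 j; positivity)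
      (by linarith) (by linarith [hl1 i])
    rw [hb]; simp only; linarith
  have hdrop : ∀ i, ratio m ν x (512 * lev rho r₀ i) - ratio m ν x (128 * lev rho r₀ i)
      ≤ b i - b (i + N) := by
    intro i
    have h2 := hmono (512 * lev rho r₀ (i + N)) (128 * lev rho r₀ i)
      (by have := hl0 (i + N); positivity) (by rw [lev_add]; nlinarith [hl0 i])
      (by linarith [hl1 i, hl0 i])
    rw [hb]; simp only; linarith
  have hbad2 : ∀ i, badK V x₁ R rho r₀ c N x i → h (i + N) ≤ b i / c := by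
    intro i hi
    unfold badK at hi
    rw [le_div_iff₀ hc]
    have h2 := hdrop i
    have h3 := hb0 (i + N)
    rw [hh]; simp only
    have h4 : c * hinf m ν x (64 * lev rho r₀ (i + N)) < b i - b (i + N) := hi.trans_le h2
    linarith
  have hbad1 : ∀ i, badK V x₁ R rho r₀ c N x i →
      b (i + 2 * N) ≤ (C₁ / c / (1 + C₁ / c)) * b i := by
    intro i hi
    unfold badK at hi
    have h2 := hdrop i
    have h3 : b (i + 2 * N) ≤ b (i + N) := hanti (by omega)
    have h4 : c * hinf m ν x (64 * lev rho r₀ (i + N)) < b i - b (i + N) := hi.trans_le h2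
    have h5 := hMB U V hst x₁ x R (64 * lev rho r₀ (i + N)) hR hx.1.1
      (by have := hl0 (i + N); positivity) (hnb _ (by linarith [hl1 (i + N)]))
      (fun s hs hs2 => by
        have := hrat s hs (by linarith [hl1 (i + N)])
        exact ⟨this.1, this.2.trans (by linarith)⟩)
    have h6 := hmono (512 * lev rho r₀ (i + 2 * N)) (64 * lev rho r₀ (i + N) / 32)
      (by have := hl0 (i + 2 * N); positivity)
      (by
        have e : i + 2 * N = (i + N) + N := by ring
        rw [e, lev_add _ _ (i + N) N]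
        nlinarith [hl0 (i + N)])
      (by linarith [hl1 (i + N), hl0 (i + N)])
    have h7 : b (i + 2 * N) ≤ C₁ * hinf m ν x (64 * lev rho r₀ (i + N)) := by
      rw [hb]; simp only; linarith
    have h8 : b (i + 2 * N) ≤ C₁ / c * (b i - b (i + 2 * N)) := by
      calc b (i + 2 * N) ≤ C₁ * hinf m ν x (64 * lev rho r₀ (i + N)) := h7
        _ = C₁ / c * (c * hinf m ν x (64 * lev rho r₀ (i + N))) := by field_simp
        _ ≤ C₁ / c * (b i - b (i + N)) := by gcongr
        _ ≤ C₁ / c * (b i - b (i + 2 * N)) := by gcongr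
    have h9 : 0 < C₁ / c := by positivity
    rw [div_mul_eq_mul_div, le_div_iff₀ (by positivity)]
    linarith
  have hlg : 0 ≤ -Real.log (6 * rho) := by
    rw [neg_nonneg]; exact (Real.log_neg (by positivity) h1).le
  have hgrow : ∀ i j, i ≤ j → h j ≤ 2 * h i + (-Real.log (6 * rho)) * j * b i := by
    intro i j hij
    have hl := lev_anti h0 h1 hr₀ hij
    have h2 := hinf_grow (x := x) (r₁ := 64 * lev rho r₀ j) (r₂ := 64 * lev rho r₀ i) hls hmE
      (by have := hl0 j; positivity) (by linarith) (hnb _ (by linarith [hl1 i]))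
    rw [log_lev h0 hr₀ (by norm_num) hij] at h2
    have h3 := (hrat (64 * lev rho r₀ j) (by have := hl0 j; positivity)
      (by linarith [hl1 j])).1
    have h4 := hmono (64 * lev rho r₀ i) (512 * lev rho r₀ i) (by have := hl0 i; positivity)
      (by linarith [hl0 i]) (by linarith [hl1 i])
    have h5 : ratio m ν x (64 * lev rho r₀ i) - ratio m ν x (64 * lev rho r₀ j) ≤ b i := by
      rw [hb]; simp only; linarith
    have h6 : (0:ℝ) ≤ (j:ℝ) - i := by
      have : (i:ℝ) ≤ j := by exact_mod_cast hij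
      linarith
    have h7 : (j:ℝ) - i ≤ j := by
      have : (0:ℝ) ≤ i := Nat.cast_nonneg i
      linarith
    have h8 := hb0 i
    have h9 : ((j:ℝ) - i) * (-Real.log (6 * rho)) *
        (ratio m ν x (64 * lev rho r₀ i) - ratio m ν x (64 * lev rho r₀ j))
        ≤ (j:ℝ) * (-Real.log (6 * rho)) * b i := by
      have h10 : 0 ≤ ((j:ℝ) - i) * (-Real.log (6 * rho)) := mul_nonneg h6 hlg
      calc _ ≤ ((j:ℝ) - i) * (-Real.log (6 * rho)) * b i := by gcongr
        _ ≤ _ := by gcongr
    rw [hh]; simp only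
    linarith
  have hmany : ∀ᶠ k : ℕ in atTop, eta * k <
      (({i | i < k ∧ badK V x₁ R rho r₀ c N x i} : Set ℕ).ncard : ℝ) := by
    by_contra hcon
    rw [not_eventually] at hcon
    exact hnot ⟨hx, hcon.mono fun k hk => not_lt.1 hk⟩
  obtain ⟨θ, C, hθ0, hθ1, hC, hdec⟩ := exp_decay (b := b) (h := h)
    (q := C₁ / c / (1 + C₁ / c)) hN1 hb0 hanti (by positivity)
    (by rw [div_lt_one (by positivity)]; linarith [show 0 < C₁ / c by positivity]) hc hlg heta
    hbad1 hbad2 hgrow hmany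
  set β := Real.log θ / Real.log (6 * rho) with hβ
  have hβ0 : 0 < β := div_pos_of_neg_of_neg (Real.log_neg hθ0 hθ1)
    (Real.log_neg (by positivity) h1)
  set K₁ : ℝ := (1 / (6 * rho)) ^ (m + 2) with hK₁
  have hK₁1 : 1 ≤ K₁ := by
    rw [hK₁]
    refine one_le_pow₀ ?_
    rw [le_div_iff₀ (by positivity)]; linarith
  set B : ℝ := K₁ * C * (6 * rho * (64 * r₀)) ^ (-β) with hB
  have hB0 : 0 ≤ B := by positivity
  refine ⟨B, β, hB0, hβ0, fun r hr hr2 => ⟨?_, ?_⟩⟩
  · refine power_decay (f := fun r => hinf m ν x r) (s := 6 * rho) (r₀ := 64 * r₀)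
      (by positivity) h1 hθ0 hθ1 hC (by positivity : 0 ≤ K₁) (by positivity) ?_ ?_ r hr hr2
    · intro n r h2 h3
      have hr0 : 0 < r := lt_of_lt_of_le (by positivity) h2
      refine le_mul_of_le_hinf hmE hK₁1 hr0 h3 ?_
      rw [div_le_div_iff₀ hr0 (by positivity), one_mul]
      calc (6 * rho) ^ n * (64 * r₀) * (6 * rho) = (6 * rho) ^ (n + 1) * (64 * r₀) := by ring
        _ ≤ r := h2
    · intro n
      have := (hdec n).1
      have e : (6 * rho) ^ n * (64 * r₀) = 64 * lev rho r₀ n := by unfold lev; ring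
      rw [e]
      exact this
  · refine power_decay (f := fun r => ratio m ν x r - cg m * Q) (s := 6 * rho) (r₀ := 64 * r₀)
      (by positivity) h1 hθ0 hθ1 hC (by positivity : 0 ≤ K₁) (by positivity) ?_ ?_ r hr hr2
    · intro n r h2 h3
      have hr0 : 0 < r := lt_of_lt_of_le (by positivity) h2
      have h4 : (6 * rho) ^ n * (64 * r₀) ≤ 64 * r₀ := by
        have : (6 * rho) ^ n ≤ 1 := pow_le_one₀ (by positivity) h1.le
        nlinarith
      have h5 := hmono r ((6 * rho) ^ n * (64 * r₀)) hr0 h3 (by linarith)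
      have h6 := (hrat ((6 * rho) ^ n * (64 * r₀)) (by positivity) (by linarith)).1
      have h7 : 1 * (ratio m ν x ((6 * rho) ^ n * (64 * r₀)) - cg m * Q)
          ≤ K₁ * (ratio m ν x ((6 * rho) ^ n * (64 * r₀)) - cg m * Q) :=
        mul_le_mul_of_nonneg_right hK₁1 (by linarith)
      linarith
    · intro n
      have h2 := (hdec n).2
      have e : (6 * rho) ^ n * (64 * r₀) = 64 * lev rho r₀ n := by unfold lev; ring
      rw [e]
      have h3 := hmono (64 * lev rho r₀ n) (512 * lev rho r₀ n) (by have := hl0 n; positivity)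
        (by linarith [hl0 n]) (by linarith [hl1 n])
      rw [hb] at h2
      simp only at h2
      linarith

end Vale.Agent.P214.DIM
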